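import Mathlib

/-!
# P321, lower bound: degree-2 extrapolation on sets of trains

`mob φ K = ∑_{I ⊆ K} (-1)^{|K \ I|} φ I`.  Möbius inversion `∑_{K ⊆ J} mob φ K = φ J`, the top value
`∑_{|K| ≤ 2} mob φ K = ∑_{|K| = 2} φ K - (k-2) ∑_i φ {i} + C(k-1,2) φ ∅` and the exact cell identity
`φ J = ∑_{|K|=2} φ (K ∩ J) - (k-2) ∑_i φ ({i} ∩ J) + C(k-1,2) φ ∅` for `|J| ≤ 2`.
-/

namespace Vale.Agent.P321.H505

open Finset

variable {ι : Type*} [Fintype ι] [DecidableEq ι] {A : Type*} [AddCommGroup A]

/-- Möbius transform. -/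
def mob (φ : Finset ι → A) (K : Finset ι) : A :=
  ∑ I ∈ K.powerset, ((-1 : ℤ) ^ (K \ I).card) • φ I

omit [Fintype ι] in
/-- Möbius inversion on the Boolean lattice. -/
theorem sum_mob (φ : Finset ι → A) (J : Finset ι) : ∑ K ∈ J.powerset, mob φ K = φ J := by
  classical
  unfold mob
  rw [Finset.sum_sigma' J.powerset (fun K => K.powerset)
    (fun K I => ((-1 : ℤ) ^ (K \ I).card) • φ I)]
  have h1 : ∑ x ∈ J.powerset.sigma (fun K => K.powerset), ((-1 : ℤ) ^ (x.1 \ x.2).card) • φ x.2
      = ∑ x ∈ J.powerset.sigma (fun I => (J \ I).powerset), ((-1 : ℤ) ^ x.2.card) • φ x.1 := by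
    refine Finset.sum_bij' (fun x _ => ⟨x.2, x.1 \ x.2⟩) (fun x _ => ⟨x.1 ∪ x.2, x.1⟩) ?_ ?_ ?_ ?_ ?_
    · rintro ⟨K, I⟩ h
      simp only [mem_sigma, mem_powerset] at h ⊢
      exact ⟨h.2.trans h.1, sdiff_subset_sdiff h.1 subset_rfl⟩
    · rintro ⟨I, L⟩ h
      simp only [mem_sigma, mem_powerset] at h ⊢
      exact ⟨union_subset h.1 (h.2.trans sdiff_subset), subset_union_left⟩
    · rintro ⟨K, I⟩ h
      simp only [mem_sigma, mem_powerset] at h
      simp only [Sigma.mk.injEq, heq_eq_eq, and_true]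
      exact union_sdiff_of_subset h.2
    · rintro ⟨I, L⟩ h
      simp only [mem_sigma, mem_powerset] at h
      simp only [Sigma.mk.injEq, heq_eq_eq, true_and]
      rw [union_sdiff_left, Finset.sdiff_eq_self_iff_disjoint]
      exact (disjoint_of_subset_left h.2 sdiff_disjoint)
    · rintro ⟨K, I⟩ h
      rfl
  rw [h1, Finset.sum_sigma]
  have h2 : ∀ I ∈ J.powerset, ∑ L ∈ (J \ I).powerset, ((-1 : ℤ) ^ L.card) • φ I =
      if I = J then φ J else 0 := by
    intro I hI
    rw [← Finset.sum_smul, Finset.sum_powerset_neg_one_pow_card]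
    rw [mem_powerset] at hI
    by_cases h : I = J
    · subst h; simp
    · have h3 : J \ I ≠ ∅ := by
        intro h4
        rw [sdiff_eq_empty_iff_subset] at h4
        exact h (Subset.antisymm hI h4)
      rw [if_neg h3, if_neg h, zero_smul]
  rw [Finset.sum_congr rfl h2, Finset.sum_ite_eq' J.powerset J (fun _ => φ J)]
  simp

/-- Number of `r`-sets containing a given set. -/
lemma card_filter_superset (L : Finset ι) (r : ℕ) (h : L.card ≤ r) :
    ((powersetCard r (univ : Finset ι)).filter (fun K => L ⊆ K)).card =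
      (Fintype.card ι - L.card).choose (r - L.card) := by
  classical
  have h1 : (powersetCard r (univ : Finset ι)).filter (fun K => L ⊆ K) =
      (powersetCard (r - L.card) (univ \ L)).image (fun K => L ∪ K) := by
    ext K
    simp only [mem_filter, mem_powersetCard, mem_image, subset_univ, true_and]
    constructor
    · rintro ⟨h1, h2⟩
      exact ⟨K \ L, ⟨sdiff_subset_sdiff (subset_univ _) subset_rfl, by
        rw [card_sdiff_of_subset h2, h1]⟩, union_sdiff_of_subset h2⟩
    · rintro ⟨M, ⟨h1, h2⟩, rfl⟩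
      refine ⟨?_, subset_union_left⟩
      rw [card_union_of_disjoint (disjoint_of_subset_right h1 disjoint_sdiff), h2]
      omega
  rw [h1, card_image_of_injOn, card_powersetCard, card_sdiff_of_subset (subset_univ _), card_univ]
  intro M hM M' hM' h
  rw [mem_coe, mem_powersetCard] at hM hM'
  have h3 : ∀ X : Finset ι, X ⊆ univ \ L → (L ∪ X) \ L = X := by
    intro X hX
    rw [union_sdiff_left, Finset.sdiff_eq_self_iff_disjoint]
    exact disjoint_of_subset_left hX sdiff_disjoint
  have h4 : (L ∪ M) \ L = (L ∪ M') \ L := by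
    simp only at h
    rw [h]
  rw [h3 M hM.1, h3 M' hM'.1] at h4
  exact h4

/-- `∑_{|K| = r} φ (K ∩ J) = ∑_{L ⊆ J, |L| ≤ r} C(k - |L|, r - |L|) mob φ L`. -/
lemma sum_inter (φ : Finset ι → A) (J : Finset ι) (r : ℕ) :
    ∑ K ∈ powersetCard r (univ : Finset ι), φ (K ∩ J) =
      ∑ L ∈ J.powerset, (if L.card ≤ r then (Fintype.card ι - L.card).choose (r - L.card) else 0) •
        mob φ L := by
  classical
  have h1 : ∀ K ∈ powersetCard r (univ : Finset ι), φ (K ∩ J) =
      ∑ L ∈ J.powerset, if L ⊆ K then mob φ L else 0 := by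
    intro K _
    rw [← sum_mob φ (K ∩ J), ← Finset.sum_filter]
    refine Finset.sum_congr ?_ fun _ _ => rfl
    ext L
    simp only [mem_powerset, mem_filter, subset_inter_iff]
    tauto
  rw [Finset.sum_congr rfl h1, Finset.sum_comm]
  refine Finset.sum_congr rfl fun L _ => ?_
  rw [← Finset.sum_filter, Finset.sum_const]
  split_ifs with h
  · rw [card_filter_superset L r h]
  · have : (powersetCard r (univ : Finset ι)).filter (fun K => L ⊆ K) = ∅ := by
      rw [filter_eq_empty_iff]
      intro K hK hLK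
      rw [mem_powersetCard] at hK
      exact h ((card_le_card hLK).trans hK.2.le)
    rw [this, card_empty]

lemma choose_key (n : ℕ) : (n + 2).choose 2 + (n + 1).choose 2 = n * (n + 2) + 1 := by
  induction n with
  | zero => rfl
  | succ n ih =>
    have e1 : (n + 1 + 2).choose 2 = (n + 2) + (n + 2).choose 2 := by
      rw [show n + 1 + 2 = (n + 2) + 1 by ring, Nat.choose_succ_succ' (n + 2) 1,
        Nat.choose_one_right]
    have e2 : (n + 1 + 1).choose 2 = (n + 1) + (n + 1).choose 2 := by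
      rw [Nat.choose_succ_succ' (n + 1) 1, Nat.choose_one_right]
    rw [e1, e2]
    nlinarith

/-- **Cell identity**: a function of at most two active trains is extrapolated exactly. -/
theorem cell_identity (φ : Finset ι → A) (J : Finset ι) (hJ : J.card ≤ 2)
    (h2 : 2 ≤ Fintype.card ι) :
    ∑ K ∈ powersetCard 2 (univ : Finset ι), φ (K ∩ J)
      - ((Fintype.card ι - 2 : ℕ) : ℤ) • ∑ i : ι, φ ({i} ∩ J)
      + (((Fintype.card ι - 1).choose 2 : ℕ) : ℤ) • φ ∅ = φ J := by
  classical
  have e1 : ∑ i : ι, φ ({i} ∩ J) = ∑ K ∈ powersetCard 1 (univ : Finset ι), φ (K ∩ J) := by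
    rw [powersetCard_one, Finset.sum_map]
    rfl
  have e0 : φ ∅ = ∑ K ∈ powersetCard 0 (univ : Finset ι), φ (K ∩ J) := by
    rw [powersetCard_zero, Finset.sum_singleton, empty_inter]
  rw [e1, e0, sum_inter, sum_inter, sum_inter, ← sum_mob φ J, Finset.smul_sum, Finset.smul_sum,
    ← Finset.sum_sub_distrib, ← Finset.sum_add_distrib]
  refine Finset.sum_congr rfl fun L hL => ?_
  rw [mem_powerset] at hL
  have hL2 : L.card ≤ 2 := (card_le_card hL).trans hJ
  obtain ⟨n, hn⟩ : ∃ n, Fintype.card ι = n + 2 := ⟨Fintype.card ι - 2, by omega⟩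
  rw [hn]
  have key : (n + 2).choose 2 + (n + 1).choose 2 = n * (n + 2) + 1 := choose_key n
  interval_cases hc : L.card
  · simp only [if_true, Nat.sub_zero, zero_le, Nat.choose_one_right, Nat.choose_zero_right,
      Nat.add_sub_cancel, ← natCast_zsmul, smul_smul, ← sub_smul, ← add_smul]
    have : n + 2 - 1 = n + 1 := by omega
    rw [this]
    have k2 : (((n + 2).choose 2 : ℕ) : ℤ) + (((n + 1).choose 2 : ℕ) : ℤ) = n * (n + 2) + 1 := by
      exact_mod_cast key
    rw [show (((n + 2).choose 2 : ℕ) : ℤ) - (n : ℤ) * ((n + 2 : ℕ) : ℤ) +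
      (((n + 1).choose 2 : ℕ) : ℤ) * ((1 : ℕ) : ℤ) = 1 by push_cast at k2 ⊢; linarith, one_smul]
  · simp only [le_refl, one_le_two, if_true, show ¬ (1 ≤ 0) by omega, if_false,
      Nat.sub_self, Nat.choose_zero_right, Nat.add_sub_cancel, ← natCast_zsmul, smul_smul,
      ← sub_smul, ← add_smul, show 2 - 1 = 1 by norm_num, Nat.choose_one_right]
    have : n + 2 - 1 = n + 1 := by omega
    rw [this]
    rw [show (((n + 1 : ℕ) : ℤ)) - (n : ℤ) * ((1 : ℕ) : ℤ) + (((n + 1).choose 2 : ℕ) : ℤ) *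
      ((0 : ℕ) : ℤ) = 1 by push_cast; ring, one_smul]
  · simp only [le_refl, if_true, show ¬ (2 ≤ 0) by omega, show ¬ (2 ≤ 1) by omega, if_false,
      Nat.sub_self, Nat.choose_zero_right, ← natCast_zsmul, smul_smul, ← sub_smul, ← add_smul]
    simp

omit [Fintype ι] in
lemma mob_empty (φ : Finset ι → A) : mob φ ∅ = φ ∅ := by
  simp [mob]

/-- **Top value** of the degree-2 extrapolation in the Möbius form. -/
theorem sum_mob_le_two (φ : Finset ι → A) (h2 : 2 ≤ Fintype.card ι) :
    ∑ K ∈ powersetCard 2 (univ : Finset ι), mob φ K + ∑ i : ι, mob φ {i} + mob φ ∅ =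
      ∑ K ∈ powersetCard 2 (univ : Finset ι), φ K
        - ((Fintype.card ι - 2 : ℕ) : ℤ) • ∑ i : ι, φ {i}
        + (((Fintype.card ι - 1).choose 2 : ℕ) : ℤ) • φ ∅ := by
  classical
  have e1 : ∑ i : ι, φ {i} = ∑ K ∈ powersetCard 1 (univ : Finset ι), φ (K ∩ univ) := by
    rw [powersetCard_one, Finset.sum_map]
    simp
  have e1' : ∑ i : ι, mob φ {i} = ∑ K ∈ powersetCard 1 (univ : Finset ι), mob φ K := by
    rw [powersetCard_one, Finset.sum_map]
    rfl
  have e2 : ∑ K ∈ powersetCard 2 (univ : Finset ι), φ K =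
      ∑ K ∈ powersetCard 2 (univ : Finset ι), φ (K ∩ univ) := by simp
  have e3 : ∀ r, ∑ K ∈ powersetCard r (univ : Finset ι), φ (K ∩ univ) =
      ∑ s ∈ range (r + 1), ((Fintype.card ι - s).choose (r - s)) •
        ∑ L ∈ powersetCard s (univ : Finset ι), mob φ L := by
    intro r
    rw [sum_inter]
    have : ∀ s ∈ range (r + 1), ((Fintype.card ι - s).choose (r - s)) •
        ∑ L ∈ powersetCard s (univ : Finset ι), mob φ L =
        ∑ L ∈ (univ : Finset ι).powerset, if L.card = s then
          ((Fintype.card ι - L.card).choose (r - L.card)) • mob φ L else 0 := by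
      intro s _
      rw [Finset.smul_sum, ← Finset.sum_filter]
      refine Finset.sum_congr ?_ ?_
      · ext L; simp [mem_powersetCard]
      · intro L hL
        rw [mem_filter] at hL
        rw [hL.2]
    rw [Finset.sum_congr rfl this, Finset.sum_comm]
    refine Finset.sum_congr rfl fun L _ => ?_
    by_cases h : L.card ≤ r
    · rw [if_pos h, Finset.sum_eq_single L.card]
      · simp
      · intro b _ hb
        rw [if_neg (Ne.symm hb)]
      · intro hb
        exact absurd (mem_range.2 (by omega)) hb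
    · rw [if_neg h, zero_smul]
      refine (Finset.sum_eq_zero fun b hb => ?_).symm
      rw [mem_range] at hb
      rw [if_neg (by omega)]
  rw [e2, e1, e1', e3, e3]
  simp only [Finset.sum_range_succ, Finset.sum_range_zero, zero_add, powersetCard_zero,
    Finset.sum_singleton, Nat.sub_zero, Nat.sub_self, Nat.choose_zero_right, one_smul,
    Nat.choose_one_right, mob_empty]
  obtain ⟨n, hn⟩ : ∃ n, Fintype.card ι = n + 2 := ⟨Fintype.card ι - 2, by omega⟩
  rw [hn]
  have key : (n + 2).choose 2 + (n + 1).choose 2 = n * (n + 2) + 1 := choose_key n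
  have h3 : n + 2 - 1 = n + 1 := by omega
  have h4 : n + 2 - 2 = n := by omega
  rw [h3, h4, show 2 - 1 = 1 by norm_num, Nat.choose_one_right]
  set S2 := ∑ L ∈ powersetCard 2 (univ : Finset ι), mob φ L
  set S1 := ∑ L ∈ powersetCard 1 (univ : Finset ι), mob φ L
  have k2 : (((n + 2).choose 2 : ℕ) : ℤ) = n * (n + 2) + 1 - (((n + 1).choose 2 : ℕ) : ℤ) := by
    have : (((n + 2).choose 2 : ℕ) : ℤ) + (((n + 1).choose 2 : ℕ) : ℤ) = n * (n + 2) + 1 := by
      exact_mod_cast key
    linarith
  rw [← natCast_zsmul (φ ∅) ((n + 2).choose 2), k2, ← natCast_zsmul S1, ← natCast_zsmul (φ ∅) (n + 2)]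
  push_cast
  module

end Vale.Agent.P321.H505
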