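import Mathlib

/-!
# P321, lower bound: the label system of the trains

Every integer combination `∑_{pos} - ∑_{neg}` of augmentation `1` is the top value of a
degree-2 extrapolation: there are labels `l K` (`K` a set of at most two trains) with
`∑_{|K|=2} f (l K) - (k-2) ∑_i f (l {i}) + C(k-1,2) f (l ∅) = ∑_{pos} f - ∑_{neg} f`
for every `f` with values in an additive group.
-/

namespace Vale.Agent.P321.H505

open Finset

/-- Every list of length `#s` is the list of values of a function on the finset `s`. -/
lemma exists_fun_of_list {ι : Type*} [DecidableEq ι] {β : Type*} (s : Finset ι) (L : List β)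
    (d : β) (h : L.length = s.card) :
    ∃ l : ι → β, (∀ x ∈ s, l x ∈ L) ∧ (∀ x ∉ s, l x = d) ∧
      ∀ {A : Type} [AddCommMonoid A] (f : β → A), ∑ x ∈ s, f (l x) = (L.map f).sum := by
  classical
  let e := s.equivFinOfCardEq h.symm
  refine ⟨fun x => if hx : x ∈ s then L.get (e ⟨x, hx⟩) else d, ?_, ?_, ?_⟩
  · intro x hx
    simp only [dif_pos hx]
    exact List.get_mem _ _
  · intro x hx
    simp only [dif_neg hx]
  · intro A _ f
    rw [← Finset.sum_coe_sort s]
    have h1 : ∀ x : s, f (if hx : (x : ι) ∈ s then L.get (e ⟨x, hx⟩) else d) = f (L.get (e x)) := by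
      intro x
      rw [dif_pos x.2]
    rw [Finset.sum_congr rfl fun x _ => h1 x, Equiv.sum_comp e (fun i => f (L.get i))]
    conv_rhs => rw [← List.ofFn_get L, List.map_ofFn, List.sum_ofFn]
    rfl

/-- **Label system.** `k = 2 |neg| + 4` trains, labels in `d :: pos ++ neg`. -/
theorem exists_labels (pos neg : List ℕ) (d : ℕ) (h : pos.length = neg.length + 1) (k : ℕ)
    (hk : k = 2 * neg.length + 4) :
    ∃ l : Finset (Fin k) → ℕ, (∀ K, l K ∈ d :: (pos ++ neg)) ∧ l ∅ = d ∧
      (∀ K : Finset (Fin k), 3 ≤ K.card → l K = d) ∧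
      ∀ {A : Type} [AddCommGroup A] (f : ℕ → A),
        ∑ K ∈ powersetCard 2 (univ : Finset (Fin k)), f (l K)
          - ((k - 2 : ℕ) : ℤ) • ∑ i : Fin k, f (l {i}) + (((k - 1).choose 2 : ℕ) : ℤ) • f (l ∅)
          = (pos.map f).sum - (neg.map f).sum := by
  classical
  obtain ⟨g, hg⟩ : ∃ g, g = neg.length := ⟨_, rfl⟩
  rw [← hg] at h hk
  -- single labels
  have hs1 : (neg ++ List.replicate (g + 4) d).length = (univ : Finset (Fin k)).card := by
    rw [List.length_append, List.length_replicate, card_univ, Fintype.card_fin]; omega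
  obtain ⟨l1, hl1, -, hf1⟩ := exists_fun_of_list (univ : Finset (Fin k)) _ d hs1
  -- pair labels
  set R : ℕ := k.choose 2 - (g * (k - 3) + (g + 1)) with hR
  have hch : k.choose 2 = (g + 2) * (2 * g + 3) := by
    rw [Nat.choose_two_right, hk]
    have : (2 * g + 4) * (2 * g + 4 - 1) = 2 * ((g + 2) * (2 * g + 3)) := by
      have : 2 * g + 4 - 1 = 2 * g + 3 := by omega
      rw [this]; ring
    rw [this, Nat.mul_div_cancel_left _ (by norm_num)]
  have hch' : (k - 1).choose 2 = (g + 1) * (2 * g + 3) := by
    rw [Nat.choose_two_right, hk]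
    have : (2 * g + 4 - 1) * (2 * g + 4 - 1 - 1) = 2 * ((g + 1) * (2 * g + 3)) := by
      have h1 : 2 * g + 4 - 1 = 2 * g + 3 := by omega
      have h2 : 2 * g + 3 - 1 = 2 * g + 2 := by omega
      rw [h1, h2]; ring
    rw [this, Nat.mul_div_cancel_left _ (by norm_num)]
  have hk3 : k - 3 = 2 * g + 1 := by omega
  have hle : g * (k - 3) + (g + 1) ≤ k.choose 2 := by
    rw [hch, hk3]; nlinarith
  have hs2 : (neg.flatMap (fun x => List.replicate (k - 3) x) ++ pos ++ List.replicate R d).length
      = (powersetCard 2 (univ : Finset (Fin k))).card := by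
    rw [List.length_append, List.length_append, List.length_replicate, card_powersetCard,
      card_univ, Fintype.card_fin, List.length_flatMap, h]
    simp only [List.length_replicate, List.map_const', List.sum_replicate, smul_eq_mul, ← hg]
    omega
  obtain ⟨l2, hl2, hl2', hf2⟩ := exists_fun_of_list (powersetCard 2 (univ : Finset (Fin k))) _ d hs2
  -- the labels
  refine ⟨fun K => if hK : K.card = 1 then l1 (Finset.card_eq_one.1 hK).choose else l2 K,
    ?_, ?_, ?_, ?_⟩
  · intro K
    dsimp only
    split_ifs with hK
    · have := hl1 (Finset.card_eq_one.1 hK).choose (mem_univ _)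
      rw [List.mem_append, List.mem_replicate] at this
      rw [List.mem_cons, List.mem_append]
      tauto
    · by_cases h2 : K ∈ powersetCard 2 (univ : Finset (Fin k))
      · have := hl2 K h2
        rw [List.mem_append, List.mem_append, List.mem_flatMap, List.mem_replicate] at this
        rw [List.mem_cons, List.mem_append]
        rcases this with (⟨y, hy, hy'⟩ | h3) | h3
        · rw [List.mem_replicate] at hy'
          rw [hy'.2]; exact Or.inr (Or.inr hy)
        · exact Or.inr (Or.inl h3)
        · exact Or.inl h3.2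
      · rw [hl2' K h2]; simp
  · dsimp only
    rw [dif_neg (by simp)]
    exact hl2' _ (by simp)
  · intro K hK
    dsimp only
    rw [dif_neg (by omega)]
    refine hl2' _ ?_
    rw [mem_powersetCard]
    omega
  · intro A _ f
    have e1 : ∀ i : Fin k, (if hK : ({i} : Finset (Fin k)).card = 1 then
        l1 (Finset.card_eq_one.1 hK).choose else l2 {i}) = l1 i := by
      intro i
      have hK : ({i} : Finset (Fin k)).card = 1 := card_singleton i
      rw [dif_pos hK]
      congr 1
      have := (Finset.card_eq_one.1 hK).choose_spec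
      rw [Finset.singleton_inj] at this
      exact this.symm
    have e2 : ∀ K ∈ powersetCard 2 (univ : Finset (Fin k)), f (if hK : K.card = 1 then
        l1 (Finset.card_eq_one.1 hK).choose else l2 K) = f (l2 K) := by
      intro K hK
      rw [mem_powersetCard] at hK
      rw [dif_neg (by omega)]
    have e0 : (if hK : (∅ : Finset (Fin k)).card = 1 then
        l1 (Finset.card_eq_one.1 hK).choose else l2 ∅) = d := by
      rw [dif_neg (by simp)]
      exact hl2' _ (by simp)
    simp only [e1, e0]
    rw [Finset.sum_congr rfl e2, hf2 f, hf1 f]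
    simp only [List.map_append, List.sum_append, List.map_replicate, List.sum_replicate,
      List.map_flatMap]
    have e3 : (neg.flatMap (fun x => List.replicate (k - 3) (f x))).sum =
        (k - 3) • (neg.map f).sum := by
      clear hs1 hs2 hf1 hf2 hl1 hl2 hl2' e1 e2 e0 hg h
      induction neg with
      | nil => simp
      | cons x L ih =>
        rw [List.flatMap_cons, List.sum_append, List.sum_replicate, ih, List.map_cons,
          List.sum_cons, smul_add]
    rw [e3]
    have c1 : ((k - 2 : ℕ) : ℤ) = 2 * g + 2 := by omega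
    have c2 : (((k - 1).choose 2 : ℕ) : ℤ) = (g + 1) * (2 * g + 3) := by rw [hch']; push_cast; ring
    have c3 : (R : ℤ) = (g + 2) * (2 * g + 3) - (g * (2 * g + 1) + (g + 1)) := by
      rw [hR, Nat.cast_sub hle, hch, hk3]; push_cast; ring
    rw [c1, c2, hk3, ← natCast_zsmul, ← natCast_zsmul (f d) R, c3, ← natCast_zsmul (f d) (g + 4)]
    push_cast
    module

end Vale.Agent.P321.H505
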