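import Vale.Agent.P321.H505.PR
import Vale.Agent.P321.H505.Labels
import Vale.Agent.P321.H505.Extrap

/-!
# P321, lower bound: labels of the trains (interface)

`smallK k` = the sets of at most two trains, `co k j` = the coefficient `a_{|K|}` of the degree-2
extrapolation.
-/

namespace Vale.Agent.P321.H505

open Finset

/-- Sets of at most two trains. -/
def smallK (k : ℕ) : Finset (Finset (Fin k)) := univ.filter (fun K => K.card ≤ 2)

/-- Coefficients of the degree-2 extrapolation. -/
def co (k j : ℕ) : ℤ :=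
  if j = 0 then (((k - 1).choose 2 : ℕ) : ℤ) else if j = 1 then -((k - 2 : ℕ) : ℤ) else 1

lemma mem_smallK {k : ℕ} {K : Finset (Fin k)} : K ∈ smallK k ↔ K.card ≤ 2 := by
  simp [smallK]

/-- Sums over sets of at most two trains. -/
lemma sum_smallK {A : Type*} [AddCommGroup A] (k : ℕ) (φ : Finset (Fin k) → A) :
    ∑ K ∈ smallK k, co k K.card • φ K =
      ∑ K ∈ powersetCard 2 (univ : Finset (Fin k)), φ K
        - ((k - 2 : ℕ) : ℤ) • ∑ i : Fin k, φ {i}
        + (((k - 1).choose 2 : ℕ) : ℤ) • φ ∅ := by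
  classical
  have h1 : smallK k = powersetCard 2 univ ∪ (powersetCard 1 univ ∪ powersetCard 0 univ) := by
    ext K
    simp only [mem_smallK, mem_union, mem_powersetCard, subset_univ, true_and]
    omega
  have d1 : Disjoint (powersetCard 1 (univ : Finset (Fin k))) (powersetCard 0 univ) := by
    rw [Finset.disjoint_left]
    intro K h1 h2
    rw [mem_powersetCard] at h1 h2
    omega
  have d2 : Disjoint (powersetCard 2 (univ : Finset (Fin k)))
      (powersetCard 1 univ ∪ powersetCard 0 univ) := by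
    rw [Finset.disjoint_left]
    intro K h1 h2
    rw [mem_union, mem_powersetCard, mem_powersetCard] at h2
    rw [mem_powersetCard] at h1
    omega
  rw [h1, sum_union d2, sum_union d1, powersetCard_one, powersetCard_zero, sum_map, sum_singleton]
  have e2 : ∑ K ∈ powersetCard 2 (univ : Finset (Fin k)), co k K.card • φ K =
      ∑ K ∈ powersetCard 2 (univ : Finset (Fin k)), φ K := by
    refine Finset.sum_congr rfl fun K hK => ?_
    rw [mem_powersetCard] at hK
    rw [hK.2]
    simp [co]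
  have e1 : ∑ x : Fin k, co k (({x} : Finset (Fin k)).card) • φ {x} =
      -(((k - 2 : ℕ) : ℤ) • ∑ i : Fin k, φ {i}) := by
    rw [Finset.smul_sum, ← Finset.sum_neg_distrib]
    refine Finset.sum_congr rfl fun x _ => ?_
    rw [card_singleton]
    simp [co, neg_smul]
  have e0 : co k (∅ : Finset (Fin k)).card • φ ∅ = (((k - 1).choose 2 : ℕ) : ℤ) • φ ∅ := by
    rw [card_empty]; simp [co]
  rw [e2, e0]
  change _ + ((∑ x : Fin k, co k (({x} : Finset (Fin k)).card) • φ {x}) + _) = _
  rw [e1]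
  abel

/-- **Cell identity** (interface form). -/
theorem cell_identity' {A : Type*} [AddCommGroup A] {k : ℕ} (hk : 2 ≤ k)
    (φ : Finset (Fin k) → A) (J : Finset (Fin k)) (hJ : J.card ≤ 2) :
    ∑ K ∈ smallK k, co k K.card • φ (K ∩ J) = φ J := by
  have h := cell_identity φ J hJ (by rw [Fintype.card_fin]; exact hk)
  rw [Fintype.card_fin] at h
  rw [sum_smallK k (fun K => φ (K ∩ J)), ← h, empty_inter]

/-- The total mass of the coefficients. -/
lemma sum_abs_co (k : ℕ) : ∑ K ∈ smallK k, |co k K.card| ≤ 2 * (k : ℤ) ^ 2 := by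
  classical
  have h := sum_smallK k (fun K => if K.card = 1 then (-1 : ℤ) else 1)
  have h2 : ∑ K ∈ smallK k, |co k K.card| =
      ∑ K ∈ smallK k, co k K.card • (if K.card = 1 then (-1 : ℤ) else 1) := by
    refine Finset.sum_congr rfl fun K hK => ?_
    rw [mem_smallK] at hK
    unfold co
    split_ifs with h0 h1 h1
    · omega
    · simp
    · simp
    · simp
  rw [h2, h]
  have e2 : ∑ K ∈ powersetCard 2 (univ : Finset (Fin k)), (if K.card = 1 then (-1 : ℤ) else 1)
      = ((k.choose 2 : ℕ) : ℤ) := by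
    rw [Finset.sum_congr rfl (g := fun _ => (1 : ℤ))]
    · simp
    · intro K hK
      rw [mem_powersetCard] at hK
      rw [if_neg (by omega)]
  rw [e2]
  simp only [card_singleton, if_true, card_empty, Finset.sum_const, card_univ, Fintype.card_fin]
  rcases k with _ | _ | n
  · simp
  · simp
  · have e := choose_key n
    have h3 : ((n + 1 + 1).choose 2 : ℕ) = (n + 2).choose 2 := rfl
    have k2 : (((n + 2).choose 2 : ℕ) : ℤ) + (((n + 1).choose 2 : ℕ) : ℤ) = n * (n + 2) + 1 := by
      exact_mod_cast e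
    have e3 : n + 1 + 1 - 2 = n := by omega
    have e4 : n + 1 + 1 - 1 = n + 1 := by omega
    rw [e3, e4, h3]
    simp only [show ¬ (0 : ℕ) = 1 by norm_num, if_false, smul_eq_mul, nsmul_eq_mul]
    push_cast
    nlinarith

/-- **Labels of the trains**: `k` trains, labels `l K` for the active set `K`, top labels `w ≠ w'`
with `w^i + w'^i = 2 ∑_{|K| ≤ 2} a_{|K|} (l K)^i` for `i < m`. -/
theorem exists_train (m : ℕ) (hm : 1 ≤ m) :
    ∃ (k : ℕ) (l : Finset (Fin k) → ℕ) (w w' : ℕ), 4 ≤ k ∧ k ≤ 32 * m ^ 5 + 4 ∧ w ≠ w' ∧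
      w ≤ 2 ^ (8 * m ^ 4) ∧ w' ≤ 2 ^ (8 * m ^ 4) ∧ (∀ K, l K ≤ 2 ^ (8 * m ^ 4)) ∧
      ∀ i < m, (w : ℤ) ^ i + (w' : ℤ) ^ i =
        2 * ∑ K ∈ smallK k, co k K.card * (l K : ℤ) ^ i := by
  obtain ⟨w, w', pos, neg, hne, hlen, hcard, hle, hrel⟩ := exists_pr_explicit m hm
  obtain ⟨l, hl, -, -, hf⟩ := exists_labels pos neg 0 hlen (2 * neg.length + 4) rfl
  refine ⟨2 * neg.length + 4, l, w, w', by omega, by omega, hne, ?_, ?_, ?_, ?_⟩
  · exact hle w (by simp)
  · exact hle w' (by simp)
  · intro K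
    have h1 := hl K
    rw [List.mem_cons] at h1
    rcases h1 with h1 | h1
    · rw [h1]; exact Nat.zero_le _
    · exact hle _ (by simp only [List.mem_cons]; exact Or.inr (Or.inr h1))
  · intro i hi
    have h1 := hf (fun x : ℕ => (x : ℤ) ^ i)
    have h2 := sum_smallK (2 * neg.length + 4) (fun K => (l K : ℤ) ^ i)
    simp only [smul_eq_mul] at h1 h2
    rw [h2, h1, hrel i hi]
    ring

end Vale.Agent.P321.H505
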