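import Vale.Agent.P321.H505.NumA
import Vale.Agent.P321.H328.GenOK

/-!
# P321, lower bound: the numbers lemma `LB2.NumOK`
-/

namespace Vale.Agent.P321.H505

open Filter Topology Real

namespace RawB

variable {ε δ ρ σ N : ℝ} {m M1 X P Mi : ℕ}

lemma L3 (R : RawB ε δ ρ σ N m M1 X P Mi) {k : ℕ} (hk : k ≤ 32 * m ^ 5 + 4) :
    (2 : ℝ) ^ (k ^ 2 * m + 4) ≤ N ^ (8 : ℝ) := by
  obtain ⟨-, -, -, -, -, -, h2k⟩ := R.hqs k hk
  have := R.hσ1
  calc (2 : ℝ) ^ (k ^ 2 * m + 4) ≤ 2 ^ (k ^ 2 * m + m + 4) :=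
        pow_le_pow_right₀ (by norm_num) (by omega)
    _ ≤ N ^ σ := h2k
    _ ≤ N ^ (8 : ℝ) := R.toRaw.hmono (by linarith)

lemma L4 (R : RawB ε δ ρ σ N m M1 X P Mi) {k : ℕ} (hk : k ≤ 32 * m ^ 5 + 4) :
    3 * ((2 : ℝ) ^ (k ^ 2 * m + m + 8) * (8 * (nF X P : ℝ)) ^ 3 *
      ((2 * Mi + 1) * (2 * nQ X P + 1)) * ((k : ℝ) + 2) ^ 4) ≤ N ^ (8 : ℝ) := by
  obtain ⟨-, -, -, hk4, -, -, h2k⟩ := R.hqs k hk
  have hσ0 := R.hσ0
  have hρσ := R.hρσ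
  have hσ1 := R.hσ1
  have h1W := R.h1W
  have hW0 := R.toRaw.hW0
  have hN0 := R.toRaw.hN0
  have hF0 : (0 : ℝ) ≤ nF X P := Nat.cast_nonneg _
  have h2k' : 3 * (2 : ℝ) ^ (k ^ 2 * m + m + 8) ≤ N ^ (2 * σ) := by
    calc 3 * (2 : ℝ) ^ (k ^ 2 * m + m + 8) = 48 * 2 ^ (k ^ 2 * m + m + 4) := by
          rw [show k ^ 2 * m + m + 8 = (k ^ 2 * m + m + 4) + 4 by ring, pow_add]; ring
      _ ≤ N ^ σ * N ^ σ := mul_le_mul (by linarith) h2k (by positivity) hW0.le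
      _ = N ^ (2 * σ) := by rw [R.toRaw.hmul]; congr 1; ring
  have hFb : (8 * (nF X P : ℝ)) ≤ N ^ (1 : ℝ) := by
    have h1 : nF X P * X ≤ P ^ 2 := by
      have : nF X P ≤ P ^ 2 / X := Nat.div_le_self _ _
      exact (Nat.mul_le_mul_right _ this).trans (Nat.div_mul_le_self _ _)
    have h2 : (nF X P : ℝ) * X ≤ (P : ℝ) ^ 2 := by exact_mod_cast h1
    have h3 : (nF X P : ℝ) * N ^ (ρ - σ) ≤ N ^ (4 / 5 + ρ + 3 * σ) * N ^ (ρ - σ) := by
      calc (nF X P : ℝ) * N ^ (ρ - σ) ≤ nF X P * X := mul_le_mul_of_nonneg_left R.hXlo hF0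
        _ ≤ N ^ (4 / 5 + 2 * ρ + 2 * σ) := h2.trans R.toRaw.hP2
        _ = _ := by rw [R.toRaw.hmul]; congr 1; ring
    have h4 : (nF X P : ℝ) ≤ N ^ (4 / 5 + ρ + 3 * σ) :=
      le_of_mul_le_mul_right h3 (R.toRaw.pp _)
    calc 8 * (nF X P : ℝ) ≤ N ^ σ * N ^ (4 / 5 + ρ + 3 * σ) :=
          mul_le_mul (by linarith) h4 hF0 hW0.le
      _ = N ^ (4 / 5 + ρ + 4 * σ) := by rw [R.toRaw.hmul]; congr 1; ring
      _ ≤ _ := R.toRaw.hmono (by linarith)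
  have hF3 : (8 * (nF X P : ℝ)) ^ 3 ≤ N ^ (3 : ℝ) := by
    calc (8 * (nF X P : ℝ)) ^ 3 ≤ (N ^ (1 : ℝ)) ^ 3 := pow_le_pow_left₀ (by positivity) hFb 3
      _ = N ^ (3 : ℝ) := by rw [← rpow_natCast, ← rpow_mul hN0.le]; norm_num
  calc 3 * ((2 : ℝ) ^ (k ^ 2 * m + m + 8) * (8 * (nF X P : ℝ)) ^ 3 *
          ((2 * Mi + 1) * (2 * nQ X P + 1)) * ((k : ℝ) + 2) ^ 4)
      = 3 * (2 : ℝ) ^ (k ^ 2 * m + m + 8) * (8 * (nF X P : ℝ)) ^ 3 *
          ((2 * Mi + 1) * (2 * nQ X P + 1)) * ((k : ℝ) + 2) ^ 4 := by ring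
    _ ≤ N ^ (2 * σ) * N ^ (3 : ℝ) * N ^ (4 : ℝ) * N ^ σ := by
        apply mul_le_mul _ hk4 (by positivity) (by positivity)
        apply mul_le_mul _ R.hMiQ (by positivity) (by positivity)
        exact mul_le_mul h2k' hF3 (by positivity) (by positivity)
    _ = N ^ (7 + 3 * σ) := by rw [R.toRaw.hmul, R.toRaw.hmul, R.toRaw.hmul]; congr 1; ring
    _ ≤ N ^ (8 : ℝ) := R.toRaw.hmono (by linarith)

lemma hCQ32 (R : RawB ε δ ρ σ N m M1 X P Mi) : 32 * m ≤ nC m M1 * nQ X P := by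
  have := R.hσ0
  have := R.hσ1
  have := R.hρσ
  have h1 := R.toRaw.FQ (by linarith)
  have h2 := R.hCF
  calc 32 * m ≤ 16 * (nC m M1 * nF X P) := by omega
    _ = nC m M1 * (16 * nF X P) := by ring
    _ ≤ _ := Nat.mul_le_mul_left _ h1

lemma k0' (R : RawB ε δ ρ σ N m M1 X P Mi) (s0 : ℝ) (h0 : 0 ≤ s0)
    (h : s0 ≤ N ^ ε * √(N / ((nC m M1 * nQ X P / (32 * m) : ℕ) : ℝ))) :
    2 * ((nC m M1 : ℝ) * 3 ^ m) * s0 ≤ N ^ (-(20 * σ)) := by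
  have := R.hσ0
  have := R.hρσ
  have := R.hεσ
  have hmm := R.hmm
  have hCQ := R.hCQ32
  have hN0 := R.toRaw.hN0
  have h1W := R.h1W
  have h2 := Nat.lt_mul_div_succ (nC m M1 * nQ X P) (by omega : 0 < 32 * m)
  have h3 : 1 ≤ nC m M1 * nQ X P / (32 * m) := by
    rw [Nat.one_le_div_iff (by omega)]; exact hCQ
  generalize nC m M1 * nQ X P / (32 * m) = A at h h2 h3
  have hA0 : (0 : ℝ) < A := by exact_mod_cast h3
  have h4 : nC m M1 * nQ X P ≤ 32 * m * (2 * A) := by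
    have h4 : 32 * m * (A + 1) ≤ 32 * m * (2 * A) := Nat.mul_le_mul_left _ (by omega)
    omega
  have h5 : √(N / A) / 2 ≤ √(N / ((2 * A : ℕ) : ℝ)) := by
    have e : √(N / A) / 2 = √(N / (4 * A)) := by
      rw [show N / (4 * (A : ℝ)) = (N / A) / 2 ^ 2 by field_simp; norm_num,
        Real.sqrt_div' (N / A) (by norm_num : (0 : ℝ) ≤ 2 ^ 2), Real.sqrt_sq (by norm_num)]
    rw [e]
    apply Real.sqrt_le_sqrt
    push_cast
    exact div_le_div_of_nonneg_left hN0.le (by positivity) (by linarith)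
  have h6 : s0 / 2 ≤ N ^ ε * √(N / ((2 * A : ℕ) : ℝ)) := by
    calc s0 / 2 ≤ N ^ ε * √(N / A) / 2 := by linarith
      _ = N ^ ε * (√(N / A) / 2) := by ring
      _ ≤ _ := mul_le_mul_of_nonneg_left h5 (by positivity)
  have h7 := R.toRaw.x0 (τ := 21 * σ) (by linarith) (2 * A) (s0 / 2) (by linarith) h6 h4
  calc 2 * ((nC m M1 : ℝ) * 3 ^ m) * s0 = 2 * (2 * ((nC m M1 : ℝ) * 3 ^ m) * (s0 / 2)) := by ring
    _ ≤ 2 * N ^ (-(21 * σ)) := by linarith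
    _ ≤ N ^ σ * N ^ (-(21 * σ)) := mul_le_mul_of_nonneg_right (by linarith) (by positivity)
    _ = N ^ (-(20 * σ)) := by rw [R.toRaw.hmul]; congr 1; ring

end RawB

/-- **The numbers lemma** of the T-step. -/
theorem numOK {ε δ : ℝ} (hδ0 : 0 < δ) (hδ1 : δ ≤ 1 / 10) (hε0 : 0 < ε) (hε : ε ≤ δ / 50) :
    LB2.NumOK H328.genCond H328.G0 ε δ 100 := by
  obtain ⟨σ, hσ⟩ : ∃ σ, σ = δ / 1000 := ⟨_, rfl⟩
  obtain ⟨ρ, hρ⟩ : ∃ ρ, ρ = 100 * σ := ⟨_, rfl⟩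
  have hσ0 : 0 < σ := by rw [hσ]; positivity
  obtain ⟨c, hc⟩ : ∃ c : ℝ, c = (3 + 8) / (20 * σ) := ⟨_, rfl⟩
  have hc0 : 0 < c := by rw [hc]; positivity
  have hcτ : (3 : ℝ) + 8 ≤ 20 * σ * c := by rw [hc]; field_simp; exact le_rfl
  filter_upwards [ev_rawB (ε := ε) (δ := δ) hσ0 hρ (by rw [hσ]; ring) (by linarith) hε0
    (by linarith) hc0, const_le_rpow |(2 ^ 22 : ℝ)| hσ0, log_le_rpow 10 hσ0,
    const_le_rpow ((2 ^ 36 : ℕ) : ℝ) (by norm_num : (0 : ℝ) < 2 / 5)] with N hR hC1 hlog hP0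
  obtain ⟨M1, X, P, Mi, RB, hNe⟩ := hR
  obtain ⟨m, hm⟩ : ∃ m, m = mm c N := ⟨_, rfl⟩
  rw [← hm] at RB
  have R := RB.toRaw
  have hmm := R.hmm
  have hN1 := R.hN1
  have hN0 := R.hN0
  have hMiU := RB.hMiU
  have hP0P : 2 ^ 36 ≤ P := by
    have : ((2 ^ 36 : ℕ) : ℝ) ≤ P := hP0.trans (le_trans (R.hmono (by linarith)) R.hPlo)
    exact_mod_cast this
  have h141 : (1 + 1 / 40 : ℝ) = 41 / 40 := by norm_num
  have hkill : ∀ (x L : ℝ), 0 ≤ x → x ≤ N ^ (-(20 * σ)) → L ≤ N ^ (8 : ℝ) →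
      L * x ^ m ≤ exp (-(3 * (log N) ^ (1 + 1 / 40 : ℝ))) := by
    intro x L hx0 hx hL
    have h1 := kill_le (B := 3) hcτ (by positivity) (by norm_num) hNe hx0 hx hL
    rw [← hm] at h1
    rw [h141]
    exact h1
  refine ⟨m, M1, nC m M1, Mi, Mi, hmm, fun k hk4 hk => ?_⟩
  refine ⟨P, X, nC m M1 * (Mi * nQ X P) / m, nC m M1 * nQ X P / (32 * m),
    nC m M1 * nF X P / (4 * m), ?_⟩
  exact
    { cnd := by
        refine ⟨?_, R.XP (by linarith), hP0P, R.F3 (by linarith), R.FQ (by linarith),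
          R.GQ (by linarith) hk⟩
        exact R.gen (C1 := 2 ^ 22) hC1 hlog (by linarith) (by linarith) (by linarith) hk
      hC1 := le_rfl
      hC2 := R.lbC
      mi := RB.hMi4
      mo := RB.hMi4
      c0lo := R.hM1lo
      CFlo := by
        have := R.iso (by linarith)
        have e : ((nC m M1 * (P ^ 2 / X / 3) : ℕ) : ℝ) = (nF X P : ℝ) * nC m M1 := by
          rw [Nat.cast_mul, mul_comm]; rfl
        rw [e]
        exact this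
      mihi := by push_cast; linarith
      nlo := R.nlo (by linarith)
      nhi := R.nhi (by linarith)
      gE := Nat.mul_div_le _ _
      g0 := by rw [← mul_assoc]; exact Nat.mul_div_le _ _
      gP := by rw [← mul_assoc]; exact Nat.mul_div_le _ _
      ME1 := by
        have := RB.hCMQ
        rw [Nat.one_le_div_iff (by omega)]; omega
      M01 := by
        have := RB.hCQ32
        rw [Nat.one_le_div_iff (by omega)]; exact this
      MP1 := by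
        have := RB.hCF
        rw [Nat.one_le_div_iff (by omega)]; omega
      MED := RB.sz _ RB.hMQ4 _
      M0D := RB.sz _ RB.hQ4 _
      MPD := RB.sz _ (le_trans (by exact_mod_cast RB.hFQ') RB.hQ4) _
      kill0 := hkill _ _ (by positivity) (RB.k0' _ (by positivity) le_rfl) (RB.L3 hk)
      kill := by
        set L : ℝ := (2 : ℝ) ^ (k ^ 2 * m + m + 8) * (8 * (nF X P : ℝ)) ^ 3 *
          ((2 * Mi + 1) * (2 * nQ X P + 1)) * ((k : ℝ) + 2) ^ 4 with hL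
        have h1 := hkill (2 * ((nC m M1 : ℝ) * (nG1 k m * (P : ℝ) ^ 2)) *
            (N ^ ε * √(N / ((nC m M1 * (Mi * nQ X P) / m : ℕ) : ℝ)))) (3 * L) (by positivity)
            (RB.kE hk _ (by positivity) le_rfl) (RB.L4 hk)
        have h2 := hkill (2 * ((nC m M1 : ℝ) * 3 ^ m) *
            (N ^ ε * √(N / ((nC m M1 * nQ X P / (32 * m) : ℕ) : ℝ)))) (3 * L) (by positivity)
            (RB.k0' _ (by positivity) le_rfl) (RB.L4 hk)
        have h3 := hkill (2 * (nLb m : ℝ) *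
            (N ^ ε * √(N / ((nC m M1 * nF X P / (4 * m) : ℕ) : ℝ)))) (3 * L) (by positivity)
            (RB.kP _ (by positivity) le_rfl) (RB.L4 hk)
        have e : ((H328.G0 k m * P ^ 2 : ℕ) : ℝ) = nG1 k m * (P : ℝ) ^ 2 := by
          rw [Nat.cast_mul, Nat.cast_pow]; rfl
        rw [e]
        change L * ((2 * ((nC m M1 : ℝ) * (nG1 k m * (P : ℝ) ^ 2)) *
            (N ^ ε * √(N / ((nC m M1 * (Mi * nQ X P) / m : ℕ) : ℝ)))) ^ m +
          (2 * ((nC m M1 : ℝ) * 3 ^ m) *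
            (N ^ ε * √(N / ((nC m M1 * nQ X P / (32 * m) : ℕ) : ℝ)))) ^ m +
          (2 * (nLb m : ℝ) *
            (N ^ ε * √(N / ((nC m M1 * nF X P / (4 * m) : ℕ) : ℝ)))) ^ m) ≤ _
        linarith }

end Vale.Agent.P321.H505
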