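import Mathlib

/-!
# P321, lower bound: asymptotic toolbox for the T-step

`mm c N = ⌈c (log N)^{1/40}⌉`.  Everything of the form `exp (a * (mm c N)^D)` with `D < 40` is
eventually at most `N^τ`, and `(N^{-τ})^{mm c N}` beats `exp (-B (log N)^{41/40})`.
-/

namespace Vale.Agent.P321.H505

open Filter Topology

/-- The number of vanishing moments. -/
noncomputable def mm (c N : ℝ) : ℕ := ⌈c * (Real.log N) ^ (1 / 40 : ℝ)⌉₊

lemma le_mm (c N : ℝ) : c * (Real.log N) ^ (1 / 40 : ℝ) ≤ mm c N := Nat.le_ceil _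

lemma mm_pos {c N : ℝ} (hc : 0 < c) (hN : Real.exp 1 ≤ N) : 1 ≤ mm c N := by
  have h1 : 1 ≤ Real.log N := by
    rw [Real.le_log_iff_exp_le (lt_of_lt_of_le (Real.exp_pos 1) hN)]; exact hN
  unfold mm
  rw [Nat.one_le_ceil_iff]
  positivity

lemma mm_le {c N : ℝ} (hc : 0 < c) (hN : Real.exp 1 ≤ N) :
    (mm c N : ℝ) ≤ (c + 1) * (Real.log N) ^ (1 / 40 : ℝ) := by
  have h1 : 1 ≤ Real.log N := by
    rw [Real.le_log_iff_exp_le (lt_of_lt_of_le (Real.exp_pos 1) hN)]; exact hN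
  have h2 : (1 : ℝ) ≤ (Real.log N) ^ (1 / 40 : ℝ) := Real.one_le_rpow h1 (by norm_num)
  have h3 : (mm c N : ℝ) < c * (Real.log N) ^ (1 / 40 : ℝ) + 1 := Nat.ceil_lt_add_one (by positivity)
  nlinarith

/-- Powers of `mm` below the `40`-th are small compared with `log N`. -/
theorem mm_pow_le {c a τ : ℝ} (hc : 0 < c) (ha : 0 ≤ a) (hτ : 0 < τ) {D : ℕ} (hD : D < 40) :
    ∀ᶠ N : ℝ in atTop, a * (mm c N : ℝ) ^ D ≤ τ * Real.log N := by
  have hDr : (D : ℝ) < 40 := by exact_mod_cast hD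
  have h1 : Tendsto (fun y : ℝ => y ^ (1 - (D : ℝ) / 40)) atTop atTop :=
    tendsto_rpow_atTop (by linarith)
  have h2 := (h1.comp Real.tendsto_log_atTop).eventually_ge_atTop (a * (c + 1) ^ D / τ)
  filter_upwards [h2, eventually_ge_atTop (Real.exp 1)] with N hN hN1
  simp only [Function.comp] at hN
  have hl : 1 ≤ Real.log N := by
    rw [Real.le_log_iff_exp_le (lt_of_lt_of_le (Real.exp_pos 1) hN1)]; exact hN1
  have h3 := mm_le hc hN1
  have h4 : (mm c N : ℝ) ^ D ≤ (c + 1) ^ D * (Real.log N) ^ ((D : ℝ) / 40) := by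
    calc (mm c N : ℝ) ^ D ≤ ((c + 1) * (Real.log N) ^ (1 / 40 : ℝ)) ^ D :=
          pow_le_pow_left₀ (Nat.cast_nonneg _) h3 D
      _ = (c + 1) ^ D * ((Real.log N) ^ (1 / 40 : ℝ)) ^ D := by rw [mul_pow]
      _ = (c + 1) ^ D * (Real.log N) ^ ((D : ℝ) / 40) := by
          rw [← Real.rpow_natCast ((Real.log N) ^ (1 / 40 : ℝ)) D, ← Real.rpow_mul (by linarith)]
          congr 2
          ring
  rw [div_le_iff₀ hτ] at hN
  have h5 : (Real.log N) ^ (1 - (D : ℝ) / 40) * (Real.log N) ^ ((D : ℝ) / 40) = Real.log N := by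
    rw [← Real.rpow_add (by linarith)]
    simp
  calc a * (mm c N : ℝ) ^ D ≤ a * ((c + 1) ^ D * (Real.log N) ^ ((D : ℝ) / 40)) :=
        mul_le_mul_of_nonneg_left h4 ha
    _ = (a * (c + 1) ^ D) * (Real.log N) ^ ((D : ℝ) / 40) := by ring
    _ ≤ ((Real.log N) ^ (1 - (D : ℝ) / 40) * τ) * (Real.log N) ^ ((D : ℝ) / 40) :=
        mul_le_mul_of_nonneg_right hN (by positivity)
    _ = τ * ((Real.log N) ^ (1 - (D : ℝ) / 40) * (Real.log N) ^ ((D : ℝ) / 40)) := by ring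
    _ = τ * Real.log N := by rw [h5]

/-- `exp (a m^D) ≤ N^τ`. -/
theorem exp_mm_le {c a τ : ℝ} (hc : 0 < c) (ha : 0 ≤ a) (hτ : 0 < τ) {D : ℕ} (hD : D < 40) :
    ∀ᶠ N : ℝ in atTop, Real.exp (a * (mm c N : ℝ) ^ D) ≤ N ^ τ := by
  filter_upwards [mm_pow_le hc ha hτ hD, eventually_gt_atTop 0] with N h hN
  rw [Real.rpow_def_of_pos hN, mul_comm (Real.log N)]
  exact Real.exp_le_exp.2 h

/-- Comparison of powers. -/
theorem mul_rpow_le (a : ℝ) {α β : ℝ} (h : α < β) : ∀ᶠ N : ℝ in atTop, a * N ^ α ≤ N ^ β := by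
  have h1 : Tendsto (fun y : ℝ => y ^ (β - α)) atTop atTop := tendsto_rpow_atTop (by linarith)
  filter_upwards [h1.eventually_ge_atTop a, eventually_gt_atTop 0] with N h1 hN
  calc a * N ^ α ≤ N ^ (β - α) * N ^ α := mul_le_mul_of_nonneg_right h1 (by positivity)
    _ = N ^ β := by rw [← Real.rpow_add hN]; congr 1; ring

theorem const_le_rpow (a : ℝ) {β : ℝ} (h : 0 < β) : ∀ᶠ N : ℝ in atTop, a ≤ N ^ β := by
  have := mul_rpow_le a h
  filter_upwards [this, eventually_gt_atTop 0] with N h1 hN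
  simpa using h1

theorem log_le_rpow (a : ℝ) {β : ℝ} (h : 0 < β) : ∀ᶠ N : ℝ in atTop, a * Real.log N ≤ N ^ β := by
  have h1 : ∀ᶠ y : ℝ in atTop, a * y ≤ Real.exp (β * y) := by
    have h2 : Tendsto (fun y : ℝ => Real.exp (β * y) / (β * y)) atTop atTop := by
      have h3 := Real.tendsto_exp_div_pow_atTop 1
      simp only [pow_one] at h3
      exact h3.comp (tendsto_id.const_mul_atTop h)
    filter_upwards [h2.eventually_ge_atTop (a / β), eventually_gt_atTop 0] with y h4 hy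
    rw [le_div_iff₀ (by positivity)] at h4
    calc a * y = a / β * (β * y) := by field_simp
      _ ≤ _ := h4
  filter_upwards [Real.tendsto_log_atTop.eventually h1, eventually_gt_atTop 0] with N h2 hN
  rw [Real.rpow_def_of_pos hN, mul_comm (Real.log N)]
  exact h2

/-- **Kill**: a product of `m = mm c N` factors `≤ N^{-τ}` beats `exp (-B (log N)^{41/40})`, with a
loss `L ≤ N^{B'}` allowed, as soon as `τ c ≥ B + B'`. -/
theorem kill_le {c τ B B' N x L : ℝ} (hcτ : B + B' ≤ τ * c) (hτ : 0 ≤ τ) (hB' : 0 ≤ B')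
    (hN : Real.exp 1 ≤ N) (hx0 : 0 ≤ x) (hx : x ≤ N ^ (-τ)) (hL : L ≤ N ^ B') :
    L * x ^ (mm c N) ≤ Real.exp (-(B * (Real.log N) ^ (41 / 40 : ℝ))) := by
  have hN0 : 0 < N := lt_of_lt_of_le (Real.exp_pos 1) hN
  have hl : 1 ≤ Real.log N := by
    rw [Real.le_log_iff_exp_le hN0]; exact hN
  set y := Real.log N with hy
  have e1 : y ^ (41 / 40 : ℝ) = y * y ^ (1 / 40 : ℝ) := by
    rw [← Real.rpow_one_add' (by linarith) (by norm_num)]
    norm_num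
  have hy1 : 1 ≤ y ^ (1 / 40 : ℝ) := Real.one_le_rpow hl (by norm_num)
  have h1 : x ^ (mm c N) ≤ Real.exp (-(τ * c * y ^ (41 / 40 : ℝ))) := by
    calc x ^ (mm c N) ≤ (N ^ (-τ)) ^ (mm c N) := pow_le_pow_left₀ hx0 hx _
      _ = Real.exp (-(τ * y * (mm c N : ℝ))) := by
          rw [Real.rpow_def_of_pos hN0, ← Real.exp_nat_mul]
          congr 1
          rw [← hy]; ring
      _ ≤ Real.exp (-(τ * c * y ^ (41 / 40 : ℝ))) := by
          apply Real.exp_le_exp.2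
          have h2 := le_mm c N
          rw [← hy] at h2
          rw [e1]
          have h3 : τ * y * (c * y ^ (1 / 40 : ℝ)) ≤ τ * y * (mm c N : ℝ) :=
            mul_le_mul_of_nonneg_left h2 (by positivity)
          nlinarith
  have h2 : L ≤ Real.exp (B' * y ^ (41 / 40 : ℝ)) := by
    refine hL.trans ?_
    rw [Real.rpow_def_of_pos hN0, ← hy]
    apply Real.exp_le_exp.2
    rw [e1]
    have : y * 1 ≤ y * y ^ (1 / 40 : ℝ) := mul_le_mul_of_nonneg_left hy1 (by linarith)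
    nlinarith
  calc L * x ^ (mm c N) ≤ Real.exp (B' * y ^ (41 / 40 : ℝ)) *
        Real.exp (-(τ * c * y ^ (41 / 40 : ℝ))) := by
        apply mul_le_mul h2 h1 (by positivity) (by positivity)
    _ = Real.exp ((B' - τ * c) * y ^ (41 / 40 : ℝ)) := by rw [← Real.exp_add]; ring_nf
    _ ≤ Real.exp (-(B * y ^ (41 / 40 : ℝ))) := by
        apply Real.exp_le_exp.2
        have : 0 ≤ y ^ (41 / 40 : ℝ) := by positivity
        nlinarith

/-! ### The numbers of the T-step -/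

/-- label bound -/
def nLb (m : ℕ) : ℕ := 2 ^ (8 * m ^ 4)
/-- number of directions -/
def nE (k : ℕ) : ℕ := k.choose 2
/-- bound of the random multipliers -/
def nG1 (k m : ℕ) : ℕ := 4 * (k + 1) ^ 3 * 9 ^ (m * (nE k + 1))
/-- cell length -/
def nC (m M1 : ℕ) : ℕ := 2 * M1 + nLb m + 1
/-- fine radius (in cells) -/
def nF (X P : ℕ) : ℕ := P ^ 2 / X / 3
/-- half width (in cells) -/
def nQ (X P : ℕ) : ℕ := P ^ 3 / X
/-- number of letters -/
def nn (m M1 X P : ℕ) : ℕ := nC m M1 * (2 * nQ X P + 1)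

lemma k_bounds {m k : ℕ} (hm : 1 ≤ m) (hk : k ≤ 32 * m ^ 5 + 4) :
    (k : ℝ) + 2 ≤ 38 * (m : ℝ) ^ 5 ∧ ((nE k : ℕ) : ℝ) + 1 ≤ 1445 * (m : ℝ) ^ 10 := by
  have hm5 : (1 : ℝ) ≤ (m : ℝ) ^ 5 := one_le_pow₀ (by exact_mod_cast hm)
  have h1 : (k : ℝ) ≤ 32 * (m : ℝ) ^ 5 + 4 := by exact_mod_cast hk
  have h2 : (k : ℝ) + 2 ≤ 38 * (m : ℝ) ^ 5 := by linarith
  refine ⟨h2, ?_⟩
  have h3 : k.choose 2 ≤ k ^ 2 := Nat.choose_le_pow k 2
  have h4 : ((nE k : ℕ) : ℝ) ≤ (k : ℝ) ^ 2 := by exact_mod_cast h3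
  have h5 : (k : ℝ) ^ 2 ≤ (38 * (m : ℝ) ^ 5) ^ 2 := by
    apply pow_le_pow_left₀ (Nat.cast_nonneg _); linarith
  have h6 : (1 : ℝ) ≤ (m : ℝ) ^ 10 := one_le_pow₀ (by exact_mod_cast hm)
  have h7 : (38 * (m : ℝ) ^ 5) ^ 2 = 1444 * (m : ℝ) ^ 10 := by ring
  linarith

lemma pow_le_exp_mul {a b : ℝ} (ha : 1 ≤ a) (n : ℕ) (hb : a ≤ Real.exp b) :
    a ^ n ≤ Real.exp (b * n) := by
  calc a ^ n ≤ (Real.exp b) ^ n := pow_le_pow_left₀ (by linarith) hb n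
    _ = Real.exp (b * n) := by rw [← Real.exp_nat_mul]; ring_nf

/-- All the combinatorial quantities are at most `exp (10^6 m^15)`. -/
lemma small_quantities {m k : ℕ} (hm : 1 ≤ m) (hk : k ≤ 32 * m ^ 5 + 4) :
    (nG1 k m : ℝ) ≤ Real.exp (10 ^ 6 * (m : ℝ) ^ 15) ∧
    (3 : ℝ) ^ m ≤ Real.exp (10 ^ 6 * (m : ℝ) ^ 15) ∧
    (nLb m : ℝ) ≤ Real.exp (10 ^ 6 * (m : ℝ) ^ 15) ∧
    ((k : ℝ) + 2) ^ 4 ≤ Real.exp (10 ^ 6 * (m : ℝ) ^ 15) ∧
    ((nE k : ℕ) : ℝ) + 1 ≤ Real.exp (10 ^ 6 * (m : ℝ) ^ 15) ∧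
    (m : ℝ) ≤ Real.exp (10 ^ 6 * (m : ℝ) ^ 15) ∧
    (2 : ℝ) ^ (k ^ 2 * m + m + 4) ≤ Real.exp (10 ^ 6 * (m : ℝ) ^ 15) := by
  have hm1 : (1 : ℝ) ≤ (m : ℝ) := by exact_mod_cast hm
  obtain ⟨hk2, hE⟩ := k_bounds hm hk
  set M : ℝ := (m : ℝ) with hM
  have p1 : M ≤ M ^ 15 := le_self_pow₀ hm1 (by norm_num)
  have p4 : M ^ 4 ≤ M ^ 15 := pow_le_pow_right₀ hm1 (by norm_num)
  have p5 : M ^ 5 ≤ M ^ 15 := pow_le_pow_right₀ hm1 (by norm_num)
  have p10 : M ^ 10 ≤ M ^ 15 := pow_le_pow_right₀ hm1 (by norm_num)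
  have p11 : M ^ 11 ≤ M ^ 15 := pow_le_pow_right₀ hm1 (by norm_num)
  have p0 : 1 ≤ M ^ 15 := one_le_pow₀ hm1
  have hk0 : (0 : ℝ) ≤ k := Nat.cast_nonneg _
  have ex : ∀ x : ℝ, x ≤ Real.exp x := fun x => by
    have := Real.add_one_le_exp x; linarith
  have e9 : (9 : ℝ) ≤ Real.exp 3 := by
    have h := Real.exp_one_gt_d9
    have : Real.exp 3 = Real.exp 1 ^ 3 := by rw [← Real.exp_nat_mul]; norm_num
    rw [this]
    calc (9 : ℝ) ≤ 2.7 ^ 3 := by norm_num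
      _ ≤ Real.exp 1 ^ 3 := pow_le_pow_left₀ (by norm_num) (by linarith) 3
  have e3 : (3 : ℝ) ≤ Real.exp 2 := by
    have h := Real.add_one_le_exp (2 : ℝ); linarith
  have e2 : (2 : ℝ) ≤ Real.exp 1 := by
    have h := Real.add_one_le_exp (1 : ℝ); linarith
  refine ⟨?_, ?_, ?_, ?_, ?_, ?_, ?_⟩
  · -- G1
    have h1 : ((9 : ℝ)) ^ (m * (nE k + 1)) ≤ Real.exp (3 * ((m * (nE k + 1) : ℕ) : ℝ)) :=
      pow_le_exp_mul (by norm_num) _ e9
    have h2 : ((m * (nE k + 1) : ℕ) : ℝ) ≤ 1445 * M ^ 11 := by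
      push_cast
      calc M * ((nE k : ℝ) + 1) ≤ M * (1445 * M ^ 10) := mul_le_mul_of_nonneg_left hE (by linarith)
        _ = 1445 * M ^ 11 := by ring
    have h3 : 4 * ((k : ℝ) + 1) ^ 3 ≤ Real.exp (4 * 38 ^ 3 * M ^ 15) := by
      refine le_trans ?_ (ex _)
      have : ((k : ℝ) + 1) ^ 3 ≤ (38 * M ^ 5) ^ 3 :=
        pow_le_pow_left₀ (by positivity) (by linarith) 3
      calc 4 * ((k : ℝ) + 1) ^ 3 ≤ 4 * (38 * M ^ 5) ^ 3 := by linarith
        _ = 4 * 38 ^ 3 * M ^ 15 := by ring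
    have h4 : (nG1 k m : ℝ) = 4 * ((k : ℝ) + 1) ^ 3 * 9 ^ (m * (nE k + 1)) := by
      unfold nG1; push_cast; ring
    rw [h4]
    calc 4 * ((k : ℝ) + 1) ^ 3 * 9 ^ (m * (nE k + 1))
        ≤ Real.exp (4 * 38 ^ 3 * M ^ 15) * Real.exp (3 * (1445 * M ^ 11)) := by
          apply mul_le_mul h3 (h1.trans (Real.exp_le_exp.2 (by linarith))) (by positivity)
            (by positivity)
      _ = Real.exp (4 * 38 ^ 3 * M ^ 15 + 3 * (1445 * M ^ 11)) := by rw [← Real.exp_add]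
      _ ≤ _ := Real.exp_le_exp.2 (by norm_num; linarith)
  · have h1 := pow_le_exp_mul (by norm_num) m e3
    exact h1.trans (Real.exp_le_exp.2 (by linarith))
  · have h1 := pow_le_exp_mul (by norm_num) (8 * m ^ 4) e2
    unfold nLb
    push_cast at h1 ⊢
    refine h1.trans (Real.exp_le_exp.2 ?_)
    rw [← hM]; linarith
  · have h1 : ((k : ℝ) + 2) ≤ Real.exp (38 * M ^ 5) := hk2.trans (ex _)
    have h2 := pow_le_exp_mul (by linarith) 4 h1
    refine h2.trans (Real.exp_le_exp.2 ?_)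
    push_cast; linarith
  · exact (hE.trans (ex _)).trans (Real.exp_le_exp.2 (by linarith))
  · exact (ex M).trans (Real.exp_le_exp.2 (by linarith))
  · have h1 := pow_le_exp_mul (by norm_num) (k ^ 2 * m + m + 4) e2
    refine h1.trans (Real.exp_le_exp.2 ?_)
    push_cast
    rw [← hM]
    have h5 : (k : ℝ) ^ 2 ≤ 1444 * M ^ 10 := by
      calc (k : ℝ) ^ 2 ≤ (38 * M ^ 5) ^ 2 := pow_le_pow_left₀ hk0 (by linarith) 2
        _ = 1444 * M ^ 10 := by ring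
    have h6 : (k : ℝ) ^ 2 * M ≤ 1444 * M ^ 11 := by
      calc (k : ℝ) ^ 2 * M ≤ 1444 * M ^ 10 * M := mul_le_mul_of_nonneg_right h5 (by linarith)
        _ = 1444 * M ^ 11 := by ring
    linarith

end Vale.Agent.P321.H505
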