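import Vale.Agent.P321.H505.NumT

/-!
# P321, lower bound: the numbers of the T-step in the shape of `LB2.TCore`
-/

namespace Vale.Agent.P321.H505

open Filter Topology Real

/-- Everything numerical which the T-step needs, at the scale `N`; `Mi = Mo`, `c0 = M1`,
`C = nC m M1`, `F = nF X P`, `Q = nQ X P`, `G = nG1 k m * P^2`, `Lb = nLb m`. -/
structure NumA (ε δ C1 N : ℝ) (P0 m M1 X P Mi : ℕ) : Prop where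
  m1 : 1 ≤ m
  M1_lo : N ^ (1 / 5 + ε) ≤ M1
  hC : 2 * M1 + nLb m + 1 ≤ nC m M1
  lbC : 4 * nLb m ≤ nC m M1
  Mi1 : 1 ≤ Mi
  MiN : ((Mi + Mi : ℕ) : ℝ) ≤ N ^ (8 / 5 + δ)
  isoC : N ^ (1 + ε) ≤ ((nC m M1 * nF X P : ℕ) : ℝ)
  nlo : N ^ (7 / 5 : ℝ) ≤ ((nC m M1 * (2 * nQ X P + 1) : ℕ) : ℝ)
  nhi : ((nC m M1 * (2 * nQ X P + 1) : ℕ) : ℝ) ≤ N ^ (7 / 5 + δ)
  X1 : 1 ≤ X
  XP : 1000 * X ≤ P
  P0P : P0 ≤ P
  FQ : 16 * nF X P ≤ nQ X P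
  F3 : 3 ^ m ≤ nF X P
  gen : ∀ k, 4 ≤ k → k ≤ 32 * m ^ 5 + 4 →
    C1 * ((k : ℝ) + 1) ^ 3 * ((nE k : ℝ) + 1) * nG1 k m * log P ≤ X
  GQ : ∀ k, 4 ≤ k → k ≤ 32 * m ^ 5 + 4 → 16 * (k ^ 2 * m * (nG1 k m * P ^ 2)) ≤ nQ X P
  half : ∀ E1 : ℝ, 0 ≤ E1 → E1 ≤ N ^ (-(10 : ℝ)) →
    (((2 * Mi + 1) * (2 * nQ X P + 1) : ℕ) : ℝ) * E1 ≤ 1 / 2
  hME : m * (nC m M1 * (Mi * nQ X P) / m) ≤ nC m M1 * (Mi * nQ X P)
  hM0 : 16 * (m * (nC m M1 * nQ X P / (16 * m))) ≤ nC m M1 * nQ X P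
  hMP : 4 * (m * (nC m M1 * nF X P / (4 * m))) ≤ nC m M1 * nF X P
  ME1 : 1 ≤ nC m M1 * (Mi * nQ X P) / m
  M01 : 1 ≤ nC m M1 * nQ X P / (16 * m)
  MP1 : 1 ≤ nC m M1 * nF X P / (4 * m)
  MEN : ((nC m M1 * (Mi * nQ X P) / m : ℕ) : ℝ) ≤ N ^ (100 : ℝ)
  M0N : ((nC m M1 * nQ X P / (16 * m) : ℕ) : ℝ) ≤ N ^ (100 : ℝ)
  MPN : ((nC m M1 * nF X P / (4 * m) : ℕ) : ℝ) ≤ N ^ (100 : ℝ)
  near : ∀ E1 : ℝ, 0 ≤ E1 → (2 * (nQ X P : ℝ) + 1) * E1 ≤ N ^ (20 : ℝ) * E1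
  f0 : ∀ k, 4 ≤ k → k ≤ 32 * m ^ 5 + 4 → ∀ E1 E2 s0 : ℝ, E1 ^ 2 ≤ E2 → E2 ≤ E1 →
    exp (-(log N) ^ (1 + 1 / 40 : ℝ)) ≤ E2 → 0 ≤ s0 →
    s0 ≤ N ^ ε * √(N / ((nC m M1 * nQ X P / (16 * m) : ℕ) : ℝ)) →
    2 ^ (k ^ 2 * m + 1) * (2 * (nC m M1 * 3 ^ m) * s0) ^ m + 4 * ((2 * (nQ X P : ℝ) + 1) * E1) ^ 2
      ≤ N ^ (20 : ℝ) * E1 ^ 2
  f1 : ∀ k, 4 ≤ k → k ≤ 32 * m ^ 5 + 4 → ∀ E1 E2 sE s0 sP : ℝ, E1 ^ 2 ≤ E2 → E2 ≤ E1 →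
    exp (-(log N) ^ (1 + 1 / 40 : ℝ)) ≤ E2 → 0 ≤ sE → 0 ≤ s0 → 0 ≤ sP →
    sE ≤ N ^ ε * √(N / ((nC m M1 * (Mi * nQ X P) / m : ℕ) : ℝ)) →
    s0 ≤ N ^ ε * √(N / ((nC m M1 * nQ X P / (16 * m) : ℕ) : ℝ)) →
    sP ≤ N ^ ε * √(N / ((nC m M1 * nF X P / (4 * m) : ℕ) : ℝ)) →
    2 ^ (k ^ 2 * m + m + 5) * (8 * (nF X P : ℝ)) ^ 3 * ((2 * Mi + 1) * (2 * nQ X P + 1)) *
          ((k : ℝ) + 2) ^ 4
        * ((2 * (nC m M1 * ((nG1 k m * P ^ 2 : ℕ) : ℝ)) * sE) ^ m + (2 * (nC m M1 * 3 ^ m) * s0) ^ m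
          + (2 * (nLb m : ℝ) * sP) ^ m)
      + 2 * ((2 * Mi + 1) * (2 * nQ X P + 1)) ^ 3 *
          (E1 ^ 2 * (E2 + Mi * (2 * nQ X P + 1) * E1 ^ 2))
      + 4 * ((2 * Mi + 1) * (2 * nQ X P + 1) * E1) ^ 4
      ≤ N ^ (20 : ℝ) * (E1 ^ 2 * E2)

/-- The numerical part of `f0`. -/
private lemma fin0 {N W A E1 E2 x q1 : ℝ} (hN : 1 ≤ N) (hE : E1 ^ 2 ≤ E2) (hE' : E2 ≤ E1)
    (hE2 : 0 < E2) (hx : A * x ≤ E2 ^ 3) (hq : q1 ≤ N ^ (8 : ℝ)) (hq0 : 0 ≤ q1)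
    (hW : W = N ^ (1 : ℝ)) (h5 : 10 ≤ W) :
    A * x + 4 * (q1 * E1) ^ 2 ≤ N ^ (20 : ℝ) * E1 ^ 2 := by
  have hN0 : 0 < N := by linarith
  have hE1 : 0 < E1 := lt_of_lt_of_le hE2 hE'
  have hE21 : E2 ≤ 1 := by
    by_contra hcon
    push Not at hcon
    have : E1 < E1 ^ 2 := by nlinarith
    linarith
  have h1 : E2 ^ 3 ≤ E1 ^ 2 := by
    have : E2 ^ 2 ≤ E1 ^ 2 := pow_le_pow_left₀ hE2.le hE' 2
    nlinarith [sq_nonneg E2]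
  have h2 : (q1 * E1) ^ 2 ≤ N ^ (16 : ℝ) * E1 ^ 2 := by
    rw [mul_pow]
    apply mul_le_mul_of_nonneg_right _ (by positivity)
    calc q1 ^ 2 ≤ (N ^ (8 : ℝ)) ^ 2 := pow_le_pow_left₀ hq0 hq 2
      _ = N ^ (16 : ℝ) := by rw [← rpow_natCast, ← rpow_mul hN0.le]; norm_num
  have h3 : 1 + 4 * N ^ (16 : ℝ) ≤ N ^ (20 : ℝ) := by
    have h4 : N ^ (17 : ℝ) ≤ N ^ (20 : ℝ) := rpow_le_rpow_of_exponent_le hN (by norm_num)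
    have h6 : N ^ (17 : ℝ) = N ^ (16 : ℝ) * W := by rw [hW, ← rpow_add hN0]; norm_num
    have h7 : 1 ≤ N ^ (16 : ℝ) := one_le_rpow hN (by norm_num)
    nlinarith
  calc A * x + 4 * (q1 * E1) ^ 2 ≤ E1 ^ 2 + 4 * (N ^ (16 : ℝ) * E1 ^ 2) := by linarith
    _ = (1 + 4 * N ^ (16 : ℝ)) * E1 ^ 2 := by ring
    _ ≤ _ := mul_le_mul_of_nonneg_right h3 (by positivity)

/-- The numerical part of `f1`. -/
private lemma fin1 {N W A E1 E2 x y z a b Mi : ℝ} (hN : 1 ≤ N) (hE : E1 ^ 2 ≤ E2) (hE' : E2 ≤ E1)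
    (hE2 : 0 < E2) (hx : A * x ≤ E2 ^ 3) (hy : A * y ≤ E2 ^ 3) (hz : A * z ≤ E2 ^ 3)
    (ha : a ≤ N ^ (4 : ℝ)) (ha0 : 0 ≤ a) (hb : Mi * b ≤ N ^ (4 : ℝ)) (hb0 : 0 ≤ Mi * b)
    (hW : W = N ^ (1 : ℝ)) (h5 : 20 ≤ W) :
    A * (x + y + z) + 2 * a ^ 3 * (E1 ^ 2 * (E2 + Mi * b * E1 ^ 2)) + 4 * (a * E1) ^ 4
      ≤ N ^ (20 : ℝ) * (E1 ^ 2 * E2) := by
  have hN0 : 0 < N := by linarith
  have hE1 : 0 < E1 := lt_of_lt_of_le hE2 hE'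
  have h7 : 1 ≤ N ^ (16 : ℝ) := one_le_rpow hN (by norm_num)
  have h7' : 1 ≤ N ^ (4 : ℝ) := one_le_rpow hN (by norm_num)
  have h1 : E2 ^ 3 ≤ E1 ^ 2 * E2 := by
    have : E2 ^ 2 ≤ E1 ^ 2 := pow_le_pow_left₀ hE2.le hE' 2
    nlinarith
  have hEE : 0 ≤ E1 ^ 2 * E2 := by positivity
  have h2 : a ^ 3 * (E1 ^ 2 * (E2 + Mi * b * E1 ^ 2)) ≤ 2 * N ^ (16 : ℝ) * (E1 ^ 2 * E2) := by
    have h3 : a ^ 3 ≤ N ^ (12 : ℝ) := by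
      calc a ^ 3 ≤ (N ^ (4 : ℝ)) ^ 3 := pow_le_pow_left₀ ha0 ha 3
        _ = N ^ (12 : ℝ) := by rw [← rpow_natCast, ← rpow_mul hN0.le]; norm_num
    have h4 : E2 + Mi * b * E1 ^ 2 ≤ 2 * N ^ (4 : ℝ) * E2 := by
      have h5 : Mi * b * E1 ^ 2 ≤ N ^ (4 : ℝ) * E2 := mul_le_mul hb hE (by positivity) (by positivity)
      nlinarith
    calc a ^ 3 * (E1 ^ 2 * (E2 + Mi * b * E1 ^ 2))
        ≤ N ^ (12 : ℝ) * (E1 ^ 2 * (2 * N ^ (4 : ℝ) * E2)) := by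
          apply mul_le_mul h3 _ _ (by positivity)
          · exact mul_le_mul_of_nonneg_left h4 (by positivity)
          · have : 0 ≤ E2 + Mi * b * E1 ^ 2 := by positivity
            positivity
      _ = 2 * (N ^ (12 : ℝ) * N ^ (4 : ℝ)) * (E1 ^ 2 * E2) := by ring
      _ = 2 * N ^ (16 : ℝ) * (E1 ^ 2 * E2) := by rw [← rpow_add hN0]; norm_num
  have h3 : (a * E1) ^ 4 ≤ N ^ (16 : ℝ) * (E1 ^ 2 * E2) := by
    rw [mul_pow]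
    have h4 : a ^ 4 ≤ N ^ (16 : ℝ) := by
      calc a ^ 4 ≤ (N ^ (4 : ℝ)) ^ 4 := pow_le_pow_left₀ ha0 ha 4
        _ = N ^ (16 : ℝ) := by rw [← rpow_natCast, ← rpow_mul hN0.le]; norm_num
    have h5 : E1 ^ 4 ≤ E1 ^ 2 * E2 := by
      calc E1 ^ 4 = E1 ^ 2 * E1 ^ 2 := by ring
        _ ≤ E1 ^ 2 * E2 := mul_le_mul_of_nonneg_left hE (by positivity)
    exact mul_le_mul h4 h5 (by positivity) (by positivity)
  have h6 : 3 + 8 * N ^ (16 : ℝ) ≤ N ^ (20 : ℝ) := by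
    have h4 : N ^ (17 : ℝ) ≤ N ^ (20 : ℝ) := rpow_le_rpow_of_exponent_le hN (by norm_num)
    have h6 : N ^ (17 : ℝ) = N ^ (16 : ℝ) * W := by rw [hW, ← rpow_add hN0]; norm_num
    have h8 : N ^ (16 : ℝ) * 20 ≤ N ^ (16 : ℝ) * W := mul_le_mul_of_nonneg_left h5 (by positivity)
    linarith
  calc A * (x + y + z) + 2 * a ^ 3 * (E1 ^ 2 * (E2 + Mi * b * E1 ^ 2)) + 4 * (a * E1) ^ 4
      = (A * x + A * y + A * z) + 2 * (a ^ 3 * (E1 ^ 2 * (E2 + Mi * b * E1 ^ 2))) +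
        4 * (a * E1) ^ 4 := by ring
    _ ≤ 3 * (E1 ^ 2 * E2) + 2 * (2 * N ^ (16 : ℝ) * (E1 ^ 2 * E2)) +
        4 * (N ^ (16 : ℝ) * (E1 ^ 2 * E2)) := by linarith
    _ = (3 + 8 * N ^ (16 : ℝ)) * (E1 ^ 2 * E2) := by ring
    _ ≤ _ := mul_le_mul_of_nonneg_right h6 hEE

/-- Raw facts including the number `Mi` of context copies. -/
structure RawB (ε δ ρ σ N : ℝ) (m M1 X P Mi : ℕ) : Prop extends Raw ε ρ σ N m M1 X P where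
  hσ0 : 0 < σ
  hρσ : ρ = 100 * σ
  hδσ : δ = 1000 * σ
  hσ1 : σ ≤ 1 / 10000
  hε0 : 0 < ε
  hεσ : ε ≤ 20 * σ
  hN100 : 100 ≤ N
  hMiU : (Mi : ℝ) ≤ N ^ (8 / 5 + δ) / 2
  hMi3 : N ^ (8 / 5 + δ) ≤ 3 * Mi
  hMi4 : 1 ≤ Mi
  hMi5 : (Mi : ℝ) ≤ N ^ (17 / 10 : ℝ)

namespace RawB

variable {ε δ ρ σ N : ℝ} {m M1 X P Mi : ℕ}

lemma hQ1 (R : RawB ε δ ρ σ N m M1 X P Mi) : (1 : ℝ) ≤ nQ X P := by
  have := R.hσ0
  have := R.hρσ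
  exact le_trans (one_le_rpow R.hN1 (by linarith)) R.hQlo

lemma hQ2 (R : RawB ε δ ρ σ N m M1 X P Mi) : (2 * (nQ X P : ℝ) + 1) ≤ N ^ (13 / 10 : ℝ) := by
  have h0 := R.hσ0
  have h2 := R.hρσ
  have h3 := R.hσ1
  have h1W := R.h1W
  have h1 := R.hQhi
  have hQ := R.hQ1
  calc (2 * (nQ X P : ℝ) + 1) ≤ 3 * N ^ (6 / 5 + 2 * ρ + 4 * σ) := by linarith
    _ ≤ N ^ σ * N ^ (6 / 5 + 2 * ρ + 4 * σ) := mul_le_mul_of_nonneg_right (by linarith) (R.toRaw.pp _).le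
    _ = N ^ (6 / 5 + 2 * ρ + 5 * σ) := by rw [R.toRaw.hmul]; congr 1; ring
    _ ≤ _ := R.toRaw.hmono (by linarith)

lemma hMiQ (R : RawB ε δ ρ σ N m M1 X P Mi) :
    (2 * (Mi : ℝ) + 1) * (2 * nQ X P + 1) ≤ N ^ (4 : ℝ) := by
  have h3 := R.hσ1
  have h1W := R.h1W
  have h5 := R.hMi5
  have hN0 := R.toRaw.hN0
  have h17 : (1 : ℝ) ≤ N ^ (17 / 10 : ℝ) := one_le_rpow R.hN1 (by norm_num)
  have h4 : 2 * (Mi : ℝ) + 1 ≤ N ^ σ * N ^ (17 / 10 : ℝ) := by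
    have : 3 * N ^ (17 / 10 : ℝ) ≤ N ^ σ * N ^ (17 / 10 : ℝ) :=
      mul_le_mul_of_nonneg_right (by linarith) (by positivity)
    linarith
  calc (2 * (Mi : ℝ) + 1) * (2 * nQ X P + 1) ≤ (N ^ σ * N ^ (17 / 10 : ℝ)) * N ^ (13 / 10 : ℝ) :=
        mul_le_mul h4 R.hQ2 (by positivity) (by positivity)
    _ = N ^ (σ + 3) := by rw [R.toRaw.hmul, R.toRaw.hmul]; congr 1; ring
    _ ≤ N ^ (4 : ℝ) := R.toRaw.hmono (by linarith)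

lemma hMiQ' (R : RawB ε δ ρ σ N m M1 X P Mi) :
    (Mi : ℝ) * (2 * nQ X P + 1) ≤ N ^ (4 : ℝ) := by
  refine le_trans ?_ R.hMiQ
  have : (0 : ℝ) ≤ nQ X P := Nat.cast_nonneg _
  have : (0 : ℝ) ≤ Mi := Nat.cast_nonneg _
  apply mul_le_mul_of_nonneg_right _ (by positivity)
  linarith

lemma hC2 (R : RawB ε δ ρ σ N m M1 X P Mi) : (nC m M1 : ℝ) ≤ N ^ (1 : ℝ) := by
  have := R.hσ0
  have := R.hσ1
  have := R.hεσ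
  exact R.hChi.trans (R.toRaw.hmono (by linarith))

lemma hC1 (R : RawB ε δ ρ σ N m M1 X P Mi) : (1 : ℝ) ≤ nC m M1 := by
  have := R.hε0
  exact le_trans (one_le_rpow R.hN1 (by linarith)) R.hClo

lemma hFQ' (R : RawB ε δ ρ σ N m M1 X P Mi) : nF X P ≤ nQ X P := by
  have := R.hσ0
  have := R.hσ1
  have := R.hρσ
  have h1 := R.toRaw.FQ (by linarith)
  omega

lemma hCF (R : RawB ε δ ρ σ N m M1 X P Mi) : 16 * m ≤ nC m M1 * nF X P := by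
  have := R.hσ0
  have := R.hσ1
  have := R.hρσ
  have := R.hε0
  exact R.toRaw.CF (by linarith)

lemma hCQ (R : RawB ε δ ρ σ N m M1 X P Mi) : 16 * m ≤ nC m M1 * nQ X P :=
  R.hCF.trans (Nat.mul_le_mul_left _ R.hFQ')

lemma hCMQ (R : RawB ε δ ρ σ N m M1 X P Mi) : 16 * m ≤ nC m M1 * (Mi * nQ X P) :=
  R.hCQ.trans (Nat.mul_le_mul_left _ (Nat.le_mul_of_pos_left _ R.hMi4))

lemma hQ4 (R : RawB ε δ ρ σ N m M1 X P Mi) : (nQ X P : ℝ) ≤ N ^ (4 : ℝ) := by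
  have h1 : N ^ (13 / 10 : ℝ) ≤ N ^ (4 : ℝ) := R.toRaw.hmono (by norm_num)
  have h2 := R.hQ2
  have h3 := R.hQ1
  linarith

lemma hMQ4 (R : RawB ε δ ρ σ N m M1 X P Mi) : ((Mi * nQ X P : ℕ) : ℝ) ≤ N ^ (4 : ℝ) := by
  push_cast
  refine le_trans ?_ R.hMiQ'
  have : (0 : ℝ) ≤ nQ X P := Nat.cast_nonneg _
  have : (0 : ℝ) ≤ Mi := Nat.cast_nonneg _
  apply mul_le_mul_of_nonneg_left _ this
  linarith

lemma sz (R : RawB ε δ ρ σ N m M1 X P Mi) (a : ℕ) (ha : (a : ℝ) ≤ N ^ (4 : ℝ)) (b : ℕ) :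
    ((nC m M1 * a / b : ℕ) : ℝ) ≤ N ^ (100 : ℝ) := by
  have h1 : nC m M1 * a / b ≤ nC m M1 * a := Nat.div_le_self _ _
  have h2 : ((nC m M1 * a / b : ℕ) : ℝ) ≤ nC m M1 * a := by exact_mod_cast h1
  calc ((nC m M1 * a / b : ℕ) : ℝ) ≤ nC m M1 * a := h2
    _ ≤ N ^ (1 : ℝ) * N ^ (4 : ℝ) := mul_le_mul R.hC2 ha (Nat.cast_nonneg _) (R.toRaw.pp _).le
    _ ≤ N ^ (100 : ℝ) := by rw [R.toRaw.hmul]; exact R.toRaw.hmono (by norm_num)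

lemma k0 (R : RawB ε δ ρ σ N m M1 X P Mi) (s0 : ℝ) (h0 : 0 ≤ s0)
    (h : s0 ≤ N ^ ε * √(N / ((nC m M1 * nQ X P / (16 * m) : ℕ) : ℝ))) :
    2 * ((nC m M1 : ℝ) * 3 ^ m) * s0 ≤ N ^ (-(20 * σ)) := by
  have := R.hσ0
  have := R.hρσ
  have := R.hεσ
  exact R.toRaw.x0 (by linarith) _ s0 h0 h (div_ok R.hmm R.hCQ).1

lemma kP (R : RawB ε δ ρ σ N m M1 X P Mi) (sP : ℝ) (h0 : 0 ≤ sP)
    (h : sP ≤ N ^ ε * √(N / ((nC m M1 * nF X P / (4 * m) : ℕ) : ℝ))) :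
    2 * (nLb m : ℝ) * sP ≤ N ^ (-(20 * σ)) := by
  have := R.hσ0
  have := R.hρσ
  have := R.hεσ
  have hmm := R.hmm
  have hCF := R.hCF
  refine R.toRaw.xP (by linarith) _ sP h0 h ?_
  have h2 := Nat.lt_mul_div_succ (nC m M1 * nF X P) (by omega : 0 < 4 * m)
  have h3 : 1 ≤ nC m M1 * nF X P / (4 * m) := by
    rw [Nat.one_le_div_iff (by omega)]; omega
  generalize nC m M1 * nF X P / (4 * m) = A at h2 h3 ⊢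
  have h4 : 4 * m * (A + 1) ≤ 4 * m * (8 * A) := Nat.mul_le_mul_left _ (by omega)
  have h5 : 4 * m * (8 * A) = 32 * m * A := by ring
  omega

lemma kE (R : RawB ε δ ρ σ N m M1 X P Mi) {k : ℕ} (hk : k ≤ 32 * m ^ 5 + 4) (sE : ℝ)
    (h0 : 0 ≤ sE)
    (h : sE ≤ N ^ ε * √(N / ((nC m M1 * (Mi * nQ X P) / m : ℕ) : ℝ))) :
    2 * ((nC m M1 : ℝ) * (nG1 k m * (P : ℝ) ^ 2)) * sE ≤ N ^ (-(20 * σ)) := by
  have := R.hσ0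
  have := R.hρσ
  have := R.hεσ
  have := R.hδσ
  have hmm := R.hmm
  have hMi3 := R.hMi3
  refine R.toRaw.xE (η := δ) (by linarith) hk _ sE h0 h ?_
  have h2 := Nat.lt_mul_div_succ (nC m M1 * (Mi * nQ X P)) (by omega : 0 < m)
  have h4 : 1 ≤ nC m M1 * (Mi * nQ X P) / m := by
    have := R.hCMQ
    rw [Nat.one_le_div_iff (by omega)]; omega
  generalize nC m M1 * (Mi * nQ X P) / m = A at h2 h4 ⊢
  have h5 : m * (A + 1) ≤ m * (2 * A) := Nat.mul_le_mul_left _ (by omega)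
  have h6 : nC m M1 * (Mi * nQ X P) ≤ 2 * (m * A) := by
    have : m * (2 * A) = 2 * (m * A) := by ring
    omega
  have h7 : (nC m M1 : ℝ) * (Mi * nQ X P) ≤ 2 * (m * A) := by exact_mod_cast h6
  have hQ := R.hQ1
  have hC0 : (0 : ℝ) ≤ nC m M1 := Nat.cast_nonneg _
  have h8 : (nn m M1 X P : ℝ) ≤ 3 * (nC m M1 * nQ X P) := by
    have e : (nn m M1 X P : ℝ) = nC m M1 * (2 * nQ X P + 1) := by unfold nn; push_cast; ring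
    rw [e]
    have : (nC m M1 : ℝ) * (2 * nQ X P + 1) ≤ nC m M1 * (3 * nQ X P) :=
      mul_le_mul_of_nonneg_left (by linarith) hC0
    linarith
  have h9 : (0 : ℝ) ≤ nn m M1 X P := Nat.cast_nonneg _
  have hMi0 : (0 : ℝ) ≤ Mi := Nat.cast_nonneg _
  have h10 : (0 : ℝ) ≤ (m : ℝ) * A := by positivity
  calc N ^ (8 / 5 + δ) * nn m M1 X P ≤ (3 * Mi) * (3 * (nC m M1 * nQ X P)) :=
        mul_le_mul hMi3 h8 h9 (by positivity)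
    _ = 9 * ((nC m M1 : ℝ) * (Mi * nQ X P)) := by ring
    _ ≤ 9 * (2 * (m * A)) := by linarith
    _ ≤ 32 * m * A := by linarith

lemma L1 (R : RawB ε δ ρ σ N m M1 X P Mi) {k : ℕ} (hk : k ≤ 32 * m ^ 5 + 4) :
    (2 : ℝ) ^ (k ^ 2 * m + 1) ≤ N ^ (8 : ℝ) := by
  obtain ⟨-, -, -, -, -, -, h2k⟩ := R.hqs k hk
  have := R.hσ1
  calc (2 : ℝ) ^ (k ^ 2 * m + 1) ≤ 2 ^ (k ^ 2 * m + m + 4) :=
        pow_le_pow_right₀ (by norm_num) (by omega)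
    _ ≤ N ^ σ := h2k
    _ ≤ N ^ (8 : ℝ) := R.toRaw.hmono (by linarith)

lemma L2 (R : RawB ε δ ρ σ N m M1 X P Mi) {k : ℕ} (hk : k ≤ 32 * m ^ 5 + 4) :
    (2 : ℝ) ^ (k ^ 2 * m + m + 5) * (8 * (nF X P : ℝ)) ^ 3 * ((2 * Mi + 1) * (2 * nQ X P + 1)) *
        ((k : ℝ) + 2) ^ 4 ≤ N ^ (8 : ℝ) := by
  obtain ⟨-, -, -, hk4, -, -, h2k⟩ := R.hqs k hk
  have hσ0 := R.hσ0
  have hρσ := R.hρσ
  have hσ1 := R.hσ1
  have h1W := R.h1W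
  have hW0 := R.toRaw.hW0
  have hN0 := R.toRaw.hN0
  have hF0 : (0 : ℝ) ≤ nF X P := Nat.cast_nonneg _
  have h2k' : (2 : ℝ) ^ (k ^ 2 * m + m + 5) ≤ N ^ (2 * σ) := by
    calc (2 : ℝ) ^ (k ^ 2 * m + m + 5) = 2 * 2 ^ (k ^ 2 * m + m + 4) := by rw [pow_succ]; ring
      _ ≤ N ^ σ * N ^ σ := mul_le_mul (by linarith) h2k (by positivity) hW0.le
      _ = N ^ (2 * σ) := by rw [R.toRaw.hmul]; congr 1; ring
  have hFb : (8 * (nF X P : ℝ)) ≤ N ^ (1 : ℝ) := by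
    have h1 : nF X P * X ≤ P ^ 2 := by
      have : nF X P ≤ P ^ 2 / X := Nat.div_le_self _ _
      exact (Nat.mul_le_mul_right _ this).trans (Nat.div_mul_le_self _ _)
    have h2 : (nF X P : ℝ) * X ≤ (P : ℝ) ^ 2 := by exact_mod_cast h1
    have h3 : (nF X P : ℝ) * N ^ (ρ - σ) ≤ N ^ (4 / 5 + ρ + 3 * σ) * N ^ (ρ - σ) := by
      calc (nF X P : ℝ) * N ^ (ρ - σ) ≤ nF X P * X := mul_le_mul_of_nonneg_left R.hXlo hF0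
        _ ≤ N ^ (4 / 5 + 2 * ρ + 2 * σ) := h2.trans R.toRaw.hP2
        _ = _ := by rw [R.toRaw.hmul]; congr 1; ring
    have h4 : (nF X P : ℝ) ≤ N ^ (4 / 5 + ρ + 3 * σ) :=
      le_of_mul_le_mul_right h3 (R.toRaw.pp _)
    calc 8 * (nF X P : ℝ) ≤ N ^ σ * N ^ (4 / 5 + ρ + 3 * σ) :=
          mul_le_mul (by linarith) h4 hF0 hW0.le
      _ = N ^ (4 / 5 + ρ + 4 * σ) := by rw [R.toRaw.hmul]; congr 1; ring
      _ ≤ _ := R.toRaw.hmono (by linarith)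
  have hF3 : (8 * (nF X P : ℝ)) ^ 3 ≤ N ^ (3 : ℝ) := by
    calc (8 * (nF X P : ℝ)) ^ 3 ≤ (N ^ (1 : ℝ)) ^ 3 := pow_le_pow_left₀ (by positivity) hFb 3
      _ = N ^ (3 : ℝ) := by rw [← rpow_natCast, ← rpow_mul hN0.le]; norm_num
  calc (2 : ℝ) ^ (k ^ 2 * m + m + 5) * (8 * (nF X P : ℝ)) ^ 3 *
          ((2 * Mi + 1) * (2 * nQ X P + 1)) * ((k : ℝ) + 2) ^ 4
      ≤ N ^ (2 * σ) * N ^ (3 : ℝ) * N ^ (4 : ℝ) * N ^ σ := by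
        apply mul_le_mul _ hk4 (by positivity) (by positivity)
        apply mul_le_mul _ R.hMiQ (by positivity) (by positivity)
        exact mul_le_mul h2k' hF3 (by positivity) (by positivity)
    _ = N ^ (7 + 3 * σ) := by rw [R.toRaw.hmul, R.toRaw.hmul, R.toRaw.hmul]; congr 1; ring
    _ ≤ N ^ (8 : ℝ) := R.toRaw.hmono (by linarith)

lemma half (R : RawB ε δ ρ σ N m M1 X P Mi) (E1 : ℝ) (hE0 : 0 ≤ E1) (hE1 : E1 ≤ N ^ (-(10 : ℝ))) :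
    (((2 * Mi + 1) * (2 * nQ X P + 1) : ℕ) : ℝ) * E1 ≤ 1 / 2 := by
  have hN100 := R.hN100
  push_cast
  have h1 : N ^ (4 : ℝ) * N ^ (-(10 : ℝ)) = N ^ (-(6 : ℝ)) := by rw [R.toRaw.hmul]; norm_num
  have h2 : N ^ (-(6 : ℝ)) ≤ N ^ (-(1 : ℝ)) := R.toRaw.hmono (by norm_num)
  have h3 : N ^ (-(1 : ℝ)) ≤ 1 / 2 := by
    rw [rpow_neg_one, one_div]
    exact inv_anti₀ (by norm_num) (by linarith)
  calc (2 * (Mi : ℝ) + 1) * (2 * nQ X P + 1) * E1 ≤ N ^ (4 : ℝ) * N ^ (-(10 : ℝ)) :=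
        mul_le_mul R.hMiQ hE1 hE0 (R.toRaw.pp _).le
    _ ≤ 1 / 2 := by rw [h1]; exact h2.trans h3

end RawB

/-- Existence of the raw facts. -/
lemma ev_rawB {ε δ ρ σ c : ℝ} (hσ0 : 0 < σ) (hρσ : ρ = 100 * σ) (hδσ : δ = 1000 * σ)
    (hσ1 : σ ≤ 1 / 10000) (hε0 : 0 < ε) (hεσ : ε ≤ 20 * σ) (hc0 : 0 < c) :
    ∀ᶠ N : ℝ in atTop, ∃ M1 X P Mi : ℕ, RawB ε δ ρ σ N (mm c N) M1 X P Mi ∧ exp 1 ≤ N := by
  filter_upwards [ev_raw hσ0 hρσ hε0 (by linarith) hc0, eventually_ge_atTop (100 : ℝ)]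
    with N hR hN100
  obtain ⟨M1, X, P, R, hNe⟩ := hR
  have hN1 := R.hN1
  have hN0 := R.hN0
  obtain ⟨Mi, hMi⟩ : ∃ Mi, Mi = ⌊N ^ (8 / 5 + δ) / 2⌋₊ := ⟨_, rfl⟩
  have hMi1 : (Mi : ℝ) ≤ N ^ (8 / 5 + δ) / 2 := by rw [hMi]; exact Nat.floor_le (by positivity)
  have hMi2 : N ^ (8 / 5 + δ) / 2 < Mi + 1 := by rw [hMi]; exact Nat.lt_floor_add_one _
  have hbig : (100 : ℝ) ≤ N ^ (8 / 5 + δ) := by
    calc (100 : ℝ) ≤ N := hN100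
      _ = N ^ (1 : ℝ) := (rpow_one N).symm
      _ ≤ N ^ (8 / 5 + δ) := R.hmono (by linarith)
  have hMi3 : N ^ (8 / 5 + δ) ≤ 3 * Mi := by linarith
  have hMi4 : 1 ≤ Mi := by
    have : (1 : ℝ) ≤ Mi := by linarith
    exact_mod_cast this
  have hMi5 : (Mi : ℝ) ≤ N ^ (17 / 10 : ℝ) := by
    have h1 : N ^ (8 / 5 + δ) ≤ N ^ (17 / 10 : ℝ) := R.hmono (by linarith)
    have h2 : 0 < N ^ (8 / 5 + δ) := R.pp _
    linarith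
  exact ⟨M1, X, P, Mi, ⟨R, hσ0, hρσ, hδσ, hσ1, hε0, hεσ, hN100, hMi1, hMi3, hMi4, hMi5⟩, hNe⟩

/-- **The numbers of the T-step in the shape of `TCore`.** -/
theorem numA {ε δ : ℝ} (hδ0 : 0 < δ) (hδ1 : δ ≤ 1 / 10) (hε0 : 0 < ε) (hε : ε ≤ δ / 50)
    (C1 : ℝ) (P0 : ℕ) :
    ∀ᶠ N : ℝ in atTop, ∃ m M1 X P Mi : ℕ, NumA ε δ C1 N P0 m M1 X P Mi := by
  obtain ⟨σ, hσ⟩ : ∃ σ, σ = δ / 1000 := ⟨_, rfl⟩
  obtain ⟨ρ, hρ⟩ : ∃ ρ, ρ = 100 * σ := ⟨_, rfl⟩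
  have hσ0 : 0 < σ := by rw [hσ]; positivity
  obtain ⟨c, hc⟩ : ∃ c : ℝ, c = (3 + 8) / (20 * σ) := ⟨_, rfl⟩
  have hc0 : 0 < c := by rw [hc]; positivity
  have hcτ : (3 : ℝ) + 8 ≤ 20 * σ * c := by rw [hc]; field_simp; exact le_rfl
  filter_upwards [ev_rawB (ε := ε) (δ := δ) hσ0 hρ (by rw [hσ]; ring) (by linarith) hε0
    (by linarith) hc0, const_le_rpow |C1| hσ0, log_le_rpow 10 hσ0,
    const_le_rpow (P0 : ℝ) (by norm_num : (0 : ℝ) < 2 / 5)] with N hR hC1 hlog hP0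
  obtain ⟨M1, X, P, Mi, RB, hNe⟩ := hR
  obtain ⟨m, hm⟩ : ∃ m, m = mm c N := ⟨_, rfl⟩
  rw [← hm] at RB
  have R := RB.toRaw
  have hmm := R.hmm
  have hN1 := R.hN1
  have hN0 := R.hN0
  have hN100 := RB.hN100
  have hMiU := RB.hMiU
  have hP0P : P0 ≤ P := by
    have : (P0 : ℝ) ≤ P := hP0.trans (le_trans (R.hmono (by linarith)) R.hPlo)
    exact_mod_cast this
  have hkill : ∀ (x L : ℝ), 0 ≤ x → x ≤ N ^ (-(20 * σ)) → L ≤ N ^ (8 : ℝ) → ∀ E2 : ℝ,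
      exp (-(log N) ^ (1 + 1 / 40 : ℝ)) ≤ E2 → L * x ^ m ≤ E2 ^ 3 := by
    intro x L hx0 hx hL E2 hE2
    have h1 := kill_le (B := 3) hcτ (by positivity) (by norm_num) hNe hx0 hx hL
    rw [← hm] at h1
    refine h1.trans ?_
    have h2 : exp (-(3 * (log N) ^ (41 / 40 : ℝ))) = exp (-(log N) ^ (1 + 1 / 40 : ℝ)) ^ 3 := by
      rw [← Real.exp_nat_mul]
      norm_num
    rw [h2]
    exact pow_le_pow_left₀ (by positivity) hE2 3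
  have hN20 : (20 : ℝ) ≤ N ^ (1 : ℝ) := by rw [rpow_one]; linarith
  refine ⟨m, M1, X, P, Mi, ?_⟩
  exact
    { m1 := hmm
      M1_lo := R.hM1lo
      hC := le_rfl
      lbC := R.lbC
      Mi1 := RB.hMi4
      MiN := by push_cast; linarith
      isoC := by
        have := R.iso (by linarith)
        push_cast
        linarith
      nlo := R.nlo (by linarith)
      nhi := R.nhi (by linarith)
      X1 := R.hX1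
      XP := R.XP (by linarith)
      P0P := hP0P
      FQ := R.FQ (by linarith)
      F3 := R.F3 (by linarith)
      gen := fun k _ hk => R.gen hC1 hlog (by linarith) (by linarith) (by linarith) hk
      GQ := fun k _ hk => R.GQ (by linarith) hk
      half := RB.half
      hME := Nat.mul_div_le _ _
      hM0 := by rw [← mul_assoc]; exact Nat.mul_div_le _ _
      hMP := by rw [← mul_assoc]; exact Nat.mul_div_le _ _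
      ME1 := by
        have := RB.hCMQ
        rw [Nat.one_le_div_iff (by omega)]; omega
      M01 := (div_ok hmm RB.hCQ).2
      MP1 := by
        have := RB.hCF
        rw [Nat.one_le_div_iff (by omega)]; omega
      MEN := RB.sz _ RB.hMQ4 _
      M0N := RB.sz _ RB.hQ4 _
      MPN := RB.sz _ (le_trans (by exact_mod_cast RB.hFQ') RB.hQ4) _
      near := fun E1 hE0 => mul_le_mul_of_nonneg_right
        (RB.hQ2.trans (R.hmono (by norm_num))) hE0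
      f0 := by
        intro k _ hk E1 E2 s0 hE hE' hE2 hs0 hs
        have hE20 : 0 < E2 := lt_of_lt_of_le (exp_pos _) hE2
        refine fin0 hN1 hE hE' hE20 ?_ (RB.hQ2.trans (R.hmono (by norm_num))) (by positivity) rfl
          (le_trans (by norm_num) hN20)
        exact hkill _ _ (by positivity) (RB.k0 s0 hs0 hs) (RB.L1 hk) E2 hE2
      f1 := by
        intro k _ hk E1 E2 sE s0 sP hE hE' hE2 hsE0 hs00 hsP0 hsE hs0 hsP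
        have hE20 : 0 < E2 := lt_of_lt_of_le (exp_pos _) hE2
        refine fin1 hN1 hE hE' hE20 ?_ ?_ ?_ RB.hMiQ (by positivity) RB.hMiQ' (by positivity)
          rfl hN20
        · refine hkill _ _ (by positivity) ?_ (RB.L2 hk) E2 hE2
          have := RB.kE hk sE hsE0 hsE
          push_cast
          exact this
        · exact hkill _ _ (by positivity) (RB.k0 s0 hs00 hs0) (RB.L2 hk) E2 hE2
        · exact hkill _ _ (by positivity) (RB.kP sP hsP0 hsP) (RB.L2 hk) E2 hE2 }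

end Vale.Agent.P321.H505
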