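import Vale.Agent.P321.H505.Num

/-!
# P321, lower bound: the numbers of the T-step
-/

namespace Vale.Agent.P321.H505

open Filter Topology Real

lemma div_ok {a m : ℕ} (hm : 1 ≤ m) (h : 16 * m ≤ a) :
    a ≤ 32 * m * (a / (16 * m)) ∧ 1 ≤ a / (16 * m) := by
  have h1 : 1 ≤ a / (16 * m) := by
    rw [Nat.one_le_div_iff (by omega)]; exact h
  have h2 := Nat.lt_mul_div_succ a (by omega : 0 < 16 * m)
  refine ⟨?_, h1⟩
  nlinarith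

lemma rr {N a b c : ℝ} (hN : 1 ≤ N) (h : a + b ≤ c) : N ^ a * N ^ b ≤ N ^ c := by
  rw [← rpow_add (by linarith)]
  exact rpow_le_rpow_of_exponent_le hN h

/-- From `A ≤ 32 m M`, `A ≥ N^a`, `m ≤ N^σ`, `32 ≤ N^σ`: `√(N/M) ≤ N^((1 - a + 2σ)/2)`. -/
lemma sqrt_div_le {N a σ A : ℝ} {m M : ℕ} (hN : 1 ≤ N) (hm : (m : ℝ) ≤ N ^ σ)
    (h32 : (32 : ℝ) ≤ N ^ σ) (hA : N ^ a ≤ A) (h : A ≤ 32 * m * M) :
    √(N / M) ≤ N ^ ((1 - a + 2 * σ) / 2) := by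
  have hN0 : 0 < N := by linarith
  have hA0 : 0 < A := lt_of_lt_of_le (rpow_pos_of_pos hN0 a) hA
  have hM0 : (0 : ℝ) < M := by
    rcases Nat.eq_zero_or_pos M with h0 | h0
    · subst h0; simp at h; linarith
    · exact_mod_cast h0
  have h1 : N ^ a ≤ N ^ σ * N ^ σ * M := by
    calc N ^ a ≤ 32 * m * M := hA.trans h
      _ ≤ N ^ σ * N ^ σ * M := by
          apply mul_le_mul_of_nonneg_right _ hM0.le
          exact mul_le_mul h32 hm (Nat.cast_nonneg _) (by positivity)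
  have h2 : N / M ≤ N ^ (1 - a + 2 * σ) := by
    rw [div_le_iff₀ hM0]
    calc N = N ^ (1 - a) * N ^ a := by rw [← rpow_add hN0]; simp
      _ ≤ N ^ (1 - a) * (N ^ σ * N ^ σ * M) := mul_le_mul_of_nonneg_left h1 (by positivity)
      _ = N ^ (1 - a + 2 * σ) * M := by
          rw [show 1 - a + 2 * σ = (1 - a) + (σ + σ) by ring, rpow_add hN0, rpow_add hN0]; ring
  calc √(N / M) ≤ √(N ^ (1 - a + 2 * σ)) := Real.sqrt_le_sqrt h2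
    _ = N ^ ((1 - a + 2 * σ) / 2) := by
        rw [Real.sqrt_eq_rpow, ← rpow_mul hN0.le]; congr 1; ring

/-- Raw facts about the parameters. -/
structure Raw (ε ρ σ N : ℝ) (m M1 X P : ℕ) : Prop where
  hN1 : 1 ≤ N
  h1W : (10000 : ℝ) ≤ N ^ σ
  hmm : 1 ≤ m
  hqs : ∀ k, k ≤ 32 * m ^ 5 + 4 → (nG1 k m : ℝ) ≤ N ^ σ ∧ (3 : ℝ) ^ m ≤ N ^ σ ∧
      (nLb m : ℝ) ≤ N ^ σ ∧ ((k : ℝ) + 2) ^ 4 ≤ N ^ σ ∧ ((nE k : ℕ) : ℝ) + 1 ≤ N ^ σ ∧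
      (m : ℝ) ≤ N ^ σ ∧ (2 : ℝ) ^ (k ^ 2 * m + m + 4) ≤ N ^ σ
  hM1lo : N ^ (1 / 5 + ε) ≤ M1
  hLbM1 : 10000 * nLb m ≤ M1
  hClo : N ^ (1 / 5 + ε) ≤ nC m M1
  hChi : (nC m M1 : ℝ) ≤ N ^ (1 / 5 + ε + σ)
  hXhi : (X : ℝ) ≤ N ^ ρ
  hXlo : N ^ (ρ - σ) ≤ X
  hX1 : 1 ≤ X
  hPlo : N ^ (2 / 5 + ρ) ≤ P
  hPhi : (P : ℝ) ≤ N ^ (2 / 5 + ρ + σ)
  hFlo : N ^ (4 / 5 + ρ - σ) ≤ nF X P
  hQlo : N ^ (6 / 5 + 2 * ρ - σ) ≤ nQ X P
  hQhi : (nQ X P : ℝ) ≤ N ^ (6 / 5 + 2 * ρ + 4 * σ)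
  hnlo : N ^ (7 / 5 + ε + 2 * ρ - σ) ≤ nn m M1 X P
  hnhi : (nn m M1 X P : ℝ) ≤ N ^ (7 / 5 + ε + 2 * ρ + 6 * σ)

/-- Existence of the parameters. -/
theorem ev_raw {ε ρ σ c : ℝ} (hσ0 : 0 < σ) (hρ : ρ = 100 * σ) (hε0 : 0 < ε) (hρ1 : ρ ≤ 1 / 100)
    (hc0 : 0 < c) :
    ∀ᶠ N : ℝ in atTop, ∃ M1 X P : ℕ, Raw ε ρ σ N (mm c N) M1 X P ∧ exp 1 ≤ N := by
  filter_upwards [exp_mm_le hc0 (by norm_num : (0 : ℝ) ≤ 10 ^ 6) hσ0 (by norm_num : 15 < 40),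
    const_le_rpow 10000 hσ0, eventually_ge_atTop (exp 1)] with N hW h10000 hNe
  have hρ0 : 0 < ρ := by rw [hρ]; positivity
  have he1 : 1 ≤ exp 1 := by
    have := Real.add_one_le_exp (1 : ℝ); linarith
  have hN1 : 1 ≤ N := he1.trans hNe
  have hN0 : 0 < N := by linarith
  have hmm := mm_pos hc0 hNe
  obtain ⟨m, hm⟩ : ∃ m, m = mm c N := ⟨_, rfl⟩
  rw [← hm] at hmm hW ⊢
  -- the naturals
  obtain ⟨M1, hM1⟩ : ∃ M1, M1 = ⌈N ^ (1 / 5 + ε)⌉₊ := ⟨_, rfl⟩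
  obtain ⟨X, hX⟩ : ∃ X, X = ⌊N ^ ρ⌋₊ := ⟨_, rfl⟩
  obtain ⟨P, hP⟩ : ∃ P, P = ⌈N ^ (2 / 5 + ρ)⌉₊ := ⟨_, rfl⟩
  -- small quantities
  have hWpos : 0 < N ^ σ := rpow_pos_of_pos hN0 σ
  have hqs : ∀ k, k ≤ 32 * m ^ 5 + 4 → (nG1 k m : ℝ) ≤ N ^ σ ∧ (3 : ℝ) ^ m ≤ N ^ σ ∧
      (nLb m : ℝ) ≤ N ^ σ ∧ ((k : ℝ) + 2) ^ 4 ≤ N ^ σ ∧ ((nE k : ℕ) : ℝ) + 1 ≤ N ^ σ ∧
      (m : ℝ) ≤ N ^ σ ∧ (2 : ℝ) ^ (k ^ 2 * m + m + 4) ≤ N ^ σ := by
    intro k hk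
    obtain ⟨h1, h2, h3, h4, h5, h6, h7⟩ := small_quantities hmm hk
    exact ⟨h1.trans hW, h2.trans hW, h3.trans hW, h4.trans hW, h5.trans hW, h6.trans hW,
      h7.trans hW⟩
  obtain ⟨-, h3m, hLb, -, -, hmW, -⟩ := hqs 0 (by omega)
  have h1W : (10000 : ℝ) ≤ N ^ σ := h10000
  have hge1 : ∀ a : ℝ, 0 ≤ a → 1 ≤ N ^ a := fun a ha => one_le_rpow hN1 ha
  have hmono : ∀ {a b : ℝ}, a ≤ b → N ^ a ≤ N ^ b := fun h => rpow_le_rpow_of_exponent_le hN1 h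
  have hmul : ∀ a b : ℝ, N ^ a * N ^ b = N ^ (a + b) := fun a b => (rpow_add hN0 a b).symm
  -- M1
  have hM1lo : N ^ (1 / 5 + ε) ≤ M1 := by rw [hM1]; exact Nat.le_ceil _
  have hM1hi : (M1 : ℝ) ≤ 2 * N ^ (1 / 5 + ε) := by
    have h1 : (M1 : ℝ) < N ^ (1 / 5 + ε) + 1 := by rw [hM1]; exact Nat.ceil_lt_add_one (by positivity)
    have h2 := hge1 (1 / 5 + ε) (by positivity)
    linarith
  have hLbM1 : (10000 : ℝ) * nLb m ≤ M1 := by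
    have h1 : (10000 : ℝ) * nLb m ≤ N ^ σ * N ^ σ := mul_le_mul h1W hLb (Nat.cast_nonneg _) hWpos.le
    refine (h1.trans (rr hN1 ?_)).trans hM1lo
    linarith
  have hLbM1' : 10000 * nLb m ≤ M1 := by exact_mod_cast hLbM1
  have hLb1 : 1 ≤ nLb m := Nat.one_le_two_pow
  -- C
  have hCdef : (nC m M1 : ℝ) = 2 * M1 + nLb m + 1 := by unfold nC; push_cast; ring
  have hClo : N ^ (1 / 5 + ε) ≤ nC m M1 := by
    rw [hCdef]
    have : (0 : ℝ) ≤ nLb m := Nat.cast_nonneg _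
    linarith
  have hChi : (nC m M1 : ℝ) ≤ N ^ (1 / 5 + ε + σ) := by
    have h1 : (nC m M1 : ℝ) ≤ 3 * M1 := by
      have : nC m M1 ≤ 3 * M1 := by unfold nC; omega
      exact_mod_cast this
    calc (nC m M1 : ℝ) ≤ 6 * N ^ (1 / 5 + ε) := by linarith
      _ ≤ N ^ σ * N ^ (1 / 5 + ε) := by
          apply mul_le_mul_of_nonneg_right (by linarith) (by positivity)
      _ ≤ _ := rr hN1 (by linarith)
  -- X
  have hXhi : (X : ℝ) ≤ N ^ ρ := by rw [hX]; exact Nat.floor_le (by positivity)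
  have hX2 : (2 : ℝ) ≤ N ^ ρ := by
    have : N ^ σ ≤ N ^ ρ := hmono (by linarith)
    linarith
  have hXlo : N ^ (ρ - σ) ≤ X := by
    have h1 : N ^ ρ < X + 1 := by rw [hX]; exact Nat.lt_floor_add_one _
    have h2 : 2 * N ^ (ρ - σ) ≤ N ^ ρ := by
      calc 2 * N ^ (ρ - σ) ≤ N ^ σ * N ^ (ρ - σ) := by
            apply mul_le_mul_of_nonneg_right (by linarith) (by positivity)
        _ = N ^ ρ := by rw [hmul]; congr 1; ring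
    have h3 := hge1 (ρ - σ) (by linarith)
    linarith
  have hX1 : 1 ≤ X := by
    have h3 := hge1 (ρ - σ) (by linarith)
    have : (1 : ℝ) ≤ X := h3.trans hXlo
    exact_mod_cast this
  have hX0 : (0 : ℝ) < X := by exact_mod_cast hX1
  -- P
  have hPlo : N ^ (2 / 5 + ρ) ≤ P := by rw [hP]; exact Nat.le_ceil _
  have hPhi : (P : ℝ) ≤ N ^ (2 / 5 + ρ + σ) := by
    have h1 : (P : ℝ) < N ^ (2 / 5 + ρ) + 1 := by rw [hP]; exact Nat.ceil_lt_add_one (by positivity)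
    have h2 := hge1 (2 / 5 + ρ) (by positivity)
    calc (P : ℝ) ≤ 2 * N ^ (2 / 5 + ρ) := by linarith
      _ ≤ N ^ σ * N ^ (2 / 5 + ρ) := mul_le_mul_of_nonneg_right (by linarith) (by positivity)
      _ ≤ _ := rr hN1 (by linarith)
  have hP1 : (1 : ℝ) ≤ P := (hge1 _ (by positivity)).trans hPlo
  -- F
  have hFdef : nF X P = P ^ 2 / (X * 3) := by unfold nF; rw [Nat.div_div_eq_div_mul]
  have hFlo2 : N ^ (4 / 5 + 2 * ρ) ≤ 3 * X * (nF X P + 1) := by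
    have h1 := Nat.lt_mul_div_succ (P ^ 2) (by omega : 0 < X * 3)
    rw [← hFdef] at h1
    have h2 : ((P : ℝ)) ^ 2 ≤ 3 * X * (nF X P + 1) := by
      have : (P : ℝ) ^ 2 < ((X * 3 * (nF X P + 1) : ℕ) : ℝ) := by exact_mod_cast h1
      push_cast at this; linarith
    refine le_trans ?_ h2
    calc N ^ (4 / 5 + 2 * ρ) = (N ^ (2 / 5 + ρ)) ^ 2 := by
          rw [← rpow_natCast, ← rpow_mul hN0.le]; congr 1; push_cast; ring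
      _ ≤ (P : ℝ) ^ 2 := pow_le_pow_left₀ (by positivity) hPlo 2
  have hFlo : N ^ (4 / 5 + ρ - σ) ≤ nF X P := by
    have h1 : N ^ (4 / 5 + 2 * ρ) ≤ 3 * N ^ ρ * (nF X P + 1) := by
      refine hFlo2.trans ?_
      apply mul_le_mul_of_nonneg_right _ (by positivity)
      linarith
    have h2 : N ^ (4 / 5 + ρ) ≤ 3 * (nF X P + 1) := by
      have h3 : N ^ (4 / 5 + 2 * ρ) = N ^ (4 / 5 + ρ) * N ^ ρ := by rw [hmul]; congr 1; ring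
      rw [h3] at h1
      have h4 : N ^ (4 / 5 + ρ) * N ^ ρ ≤ (3 * (nF X P + 1)) * N ^ ρ := by linarith
      exact le_of_mul_le_mul_right h4 (by positivity)
    have h5 : 10000 * N ^ (4 / 5 + ρ - σ) ≤ N ^ (4 / 5 + ρ) := by
      calc 10000 * N ^ (4 / 5 + ρ - σ) ≤ N ^ σ * N ^ (4 / 5 + ρ - σ) :=
            mul_le_mul_of_nonneg_right h1W (by positivity)
        _ = N ^ (4 / 5 + ρ) := by rw [hmul]; congr 1; ring
    have h6 := hge1 (4 / 5 + ρ - σ) (by linarith)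
    linarith
  -- Q
  have hQlo : N ^ (6 / 5 + 2 * ρ - σ) ≤ nQ X P := by
    have h1 := Nat.lt_mul_div_succ (P ^ 3) (by omega : 0 < X)
    have h2 : ((P : ℝ)) ^ 3 ≤ X * (nQ X P + 1) := by
      have : (P : ℝ) ^ 3 < ((X * (P ^ 3 / X + 1) : ℕ) : ℝ) := by exact_mod_cast h1
      push_cast at this
      unfold nQ
      linarith
    have h3 : N ^ (6 / 5 + 3 * ρ) ≤ N ^ ρ * (nQ X P + 1) := by
      calc N ^ (6 / 5 + 3 * ρ) = (N ^ (2 / 5 + ρ)) ^ 3 := by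
            rw [← rpow_natCast, ← rpow_mul hN0.le]; congr 1; push_cast; ring
        _ ≤ (P : ℝ) ^ 3 := pow_le_pow_left₀ (by positivity) hPlo 3
        _ ≤ X * (nQ X P + 1) := h2
        _ ≤ _ := mul_le_mul_of_nonneg_right hXhi (by positivity)
    have h4 : N ^ (6 / 5 + 2 * ρ) ≤ nQ X P + 1 := by
      have h5 : N ^ (6 / 5 + 3 * ρ) = N ^ (6 / 5 + 2 * ρ) * N ^ ρ := by rw [hmul]; congr 1; ring
      rw [h5] at h3
      have h6 : N ^ (6 / 5 + 2 * ρ) * N ^ ρ ≤ ((nQ X P : ℝ) + 1) * N ^ ρ := by linarith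
      exact le_of_mul_le_mul_right h6 (by positivity)
    have h5 : 10000 * N ^ (6 / 5 + 2 * ρ - σ) ≤ N ^ (6 / 5 + 2 * ρ) := by
      calc 10000 * N ^ (6 / 5 + 2 * ρ - σ) ≤ N ^ σ * N ^ (6 / 5 + 2 * ρ - σ) :=
            mul_le_mul_of_nonneg_right h1W (by positivity)
        _ = N ^ (6 / 5 + 2 * ρ) := by rw [hmul]; congr 1; ring
    have h6 := hge1 (6 / 5 + 2 * ρ - σ) (by linarith)
    linarith
  have hQhi : (nQ X P : ℝ) ≤ N ^ (6 / 5 + 2 * ρ + 4 * σ) := by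
    have h1 : nQ X P * X ≤ P ^ 3 := Nat.div_mul_le_self _ _
    have h2 : (nQ X P : ℝ) * X ≤ (P : ℝ) ^ 3 := by exact_mod_cast h1
    have h3 : (P : ℝ) ^ 3 ≤ N ^ (6 / 5 + 3 * ρ + 3 * σ) := by
      calc (P : ℝ) ^ 3 ≤ (N ^ (2 / 5 + ρ + σ)) ^ 3 := pow_le_pow_left₀ (by positivity) hPhi 3
        _ = N ^ (6 / 5 + 3 * ρ + 3 * σ) := by
            rw [← rpow_natCast, ← rpow_mul hN0.le]; congr 1; push_cast; ring
    have h4 : (nQ X P : ℝ) * N ^ (ρ - σ) ≤ N ^ (6 / 5 + 2 * ρ + 4 * σ) * N ^ (ρ - σ) := by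
      calc (nQ X P : ℝ) * N ^ (ρ - σ) ≤ nQ X P * X :=
            mul_le_mul_of_nonneg_left hXlo (Nat.cast_nonneg _)
        _ ≤ N ^ (6 / 5 + 3 * ρ + 3 * σ) := h2.trans h3
        _ = _ := by rw [hmul]; congr 1; ring
    exact le_of_mul_le_mul_right h4 (by positivity)
  -- n
  have hndef : (nn m M1 X P : ℝ) = nC m M1 * (2 * nQ X P + 1) := by unfold nn; push_cast; ring
  have hnlo : N ^ (7 / 5 + ε + 2 * ρ - σ) ≤ nn m M1 X P := by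
    rw [hndef]
    calc N ^ (7 / 5 + ε + 2 * ρ - σ) = N ^ (1 / 5 + ε) * N ^ (6 / 5 + 2 * ρ - σ) := by
          rw [hmul]; congr 1; ring
      _ ≤ nC m M1 * (2 * nQ X P + 1) := by
          apply mul_le_mul hClo _ (by positivity) (Nat.cast_nonneg _)
          have : (0 : ℝ) ≤ nQ X P := Nat.cast_nonneg _
          linarith
  have hnhi : (nn m M1 X P : ℝ) ≤ N ^ (7 / 5 + ε + 2 * ρ + 6 * σ) := by
    rw [hndef]
    calc (nC m M1 : ℝ) * (2 * nQ X P + 1) ≤ N ^ (1 / 5 + ε + σ) * N ^ (6 / 5 + 2 * ρ + 5 * σ) := by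
          apply mul_le_mul hChi _ (by positivity) (by positivity)
          have h1 : 3 * N ^ (6 / 5 + 2 * ρ + 4 * σ) ≤ N ^ (6 / 5 + 2 * ρ + 5 * σ) := by
            calc 3 * N ^ (6 / 5 + 2 * ρ + 4 * σ) ≤ N ^ σ * N ^ (6 / 5 + 2 * ρ + 4 * σ) :=
                  mul_le_mul_of_nonneg_right (by linarith) (by positivity)
              _ = _ := by rw [hmul]; congr 1; ring
          have h2 := hge1 (6 / 5 + 2 * ρ + 4 * σ) (by positivity)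
          linarith
      _ = _ := by rw [hmul]; congr 1; ring
  refine ⟨M1, X, P, ⟨hN1, h1W, hmm, hqs, hM1lo, hLbM1', hClo, hChi, hXhi, hXlo, hX1, hPlo, hPhi,
    hFlo, hQlo, hQhi, hnlo, hnhi⟩, hNe⟩

end Vale.Agent.P321.H505
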