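import Vale.Agent.P321.H505.NumRaw

/-!
# P321, lower bound: the numbers of the T-step (interface)
-/

namespace Vale.Agent.P321.H505

open Filter Topology Real

/-- All the numerical facts of the T-step at the scale `N`. -/
structure NumT (ε η B C1 N : ℝ) (P0 m M1 X P : ℕ) : Prop where
  m1 : 1 ≤ m
  M1_lo : N ^ (1 / 5 + ε) ≤ M1
  lbC : 4 * nLb m ≤ nC m M1
  X1 : 1 ≤ X
  XP : 1000 * X ≤ P
  P0P : P0 ≤ P
  nlo : N ^ (7 / 5 : ℝ) ≤ nn m M1 X P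
  nhi : (nn m M1 X P : ℝ) ≤ N ^ (7 / 5 + η)
  iso : N ^ (1 + ε) ≤ nF X P * nC m M1
  FQ : 16 * nF X P ≤ nQ X P
  F3 : 3 ^ m ≤ nF X P
  CF : 16 * m ≤ nC m M1 * nF X P
  gen : ∀ k, 4 ≤ k → k ≤ 32 * m ^ 5 + 4 →
    C1 * ((k : ℝ) + 1) ^ 3 * ((nE k : ℝ) + 1) * nG1 k m * log P ≤ X
  GQ : ∀ k, 4 ≤ k → k ≤ 32 * m ^ 5 + 4 → 16 * (k ^ 2 * m * (nG1 k m * P ^ 2)) ≤ nQ X P
  loss : ∀ k, 4 ≤ k → k ≤ 32 * m ^ 5 + 4 →
    (2 : ℝ) ^ (k ^ 2 * m + m + 4) * ((k : ℝ) + 2) ^ 4 * (8 * (nn m M1 X P : ℝ)) ^ 3 ≤ N ^ (5 : ℝ)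
  kill0 : ∀ (M : ℕ) (s L : ℝ), 0 ≤ s → s ≤ N ^ ε * √(N / M) → nC m M1 * nQ X P ≤ 32 * m * M →
    L ≤ N ^ (8 : ℝ) →
    L * (2 * (nC m M1 * 3 ^ m) * s) ^ m ≤ exp (-(B * (log N) ^ (41 / 40 : ℝ)))
  killP : ∀ (M : ℕ) (s L : ℝ), 0 ≤ s → s ≤ N ^ ε * √(N / M) → nC m M1 * nF X P ≤ 32 * m * M →
    L ≤ N ^ (8 : ℝ) →
    L * (2 * nLb m * s) ^ m ≤ exp (-(B * (log N) ^ (41 / 40 : ℝ)))
  killE : ∀ k, 4 ≤ k → k ≤ 32 * m ^ 5 + 4 → ∀ (M : ℕ) (s L : ℝ), 0 ≤ s → s ≤ N ^ ε * √(N / M) →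
    N ^ (8 / 5 + η) * nn m M1 X P ≤ 32 * m * M → L ≤ N ^ (8 : ℝ) →
    L * (2 * (nC m M1 * (nG1 k m * P ^ 2)) * s) ^ m ≤ exp (-(B * (log N) ^ (41 / 40 : ℝ)))


namespace Raw

variable {ε ρ σ N : ℝ} {m M1 X P : ℕ}

lemma hmono (R : Raw ε ρ σ N m M1 X P) {a b : ℝ} (h : a ≤ b) : N ^ a ≤ N ^ b :=
  rpow_le_rpow_of_exponent_le R.hN1 h

lemma hN0 (R : Raw ε ρ σ N m M1 X P) : 0 < N := lt_of_lt_of_le one_pos R.hN1

lemma hmul (R : Raw ε ρ σ N m M1 X P) (a b : ℝ) : N ^ a * N ^ b = N ^ (a + b) :=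
  (rpow_add R.hN0 a b).symm

lemma hW0 (R : Raw ε ρ σ N m M1 X P) : 0 < N ^ σ := rpow_pos_of_pos R.hN0 σ

lemma pp (R : Raw ε ρ σ N m M1 X P) (a : ℝ) : 0 < N ^ a := rpow_pos_of_pos R.hN0 a

lemma hP2 (R : Raw ε ρ σ N m M1 X P) : (P : ℝ) ^ 2 ≤ N ^ (4 / 5 + 2 * ρ + 2 * σ) := by
  have hN0 := R.hN0
  calc (P : ℝ) ^ 2 ≤ (N ^ (2 / 5 + ρ + σ)) ^ 2 := pow_le_pow_left₀ (by positivity) R.hPhi 2
    _ = _ := by rw [← rpow_natCast, ← rpow_mul hN0.le]; congr 1; push_cast; ring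

lemma lbC (R : Raw ε ρ σ N m M1 X P) : 4 * nLb m ≤ nC m M1 := by
  have := R.hLbM1
  unfold nC; omega

lemma XP (R : Raw ε ρ σ N m M1 X P) (h : σ ≤ 2 / 5) : 1000 * X ≤ P := by
  have h1W := R.h1W
  have : (1000 : ℝ) * X ≤ P := by
    calc (1000 : ℝ) * X ≤ N ^ σ * N ^ ρ := mul_le_mul (by linarith) R.hXhi (Nat.cast_nonneg _) R.hW0.le
      _ ≤ N ^ (2 / 5 + ρ) := rr R.hN1 (by linarith)
      _ ≤ P := R.hPlo
  exact_mod_cast this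

lemma nlo (R : Raw ε ρ σ N m M1 X P) (h : 0 ≤ ε + 2 * ρ - σ) :
    N ^ (7 / 5 : ℝ) ≤ nn m M1 X P := (R.hmono (by linarith)).trans R.hnlo

lemma nhi (R : Raw ε ρ σ N m M1 X P) {η : ℝ} (h : ε + 2 * ρ + 6 * σ ≤ η) :
    (nn m M1 X P : ℝ) ≤ N ^ (7 / 5 + η) := R.hnhi.trans (R.hmono (by linarith))

lemma iso (R : Raw ε ρ σ N m M1 X P) (h : σ ≤ ρ) : N ^ (1 + ε) ≤ nF X P * nC m M1 := by
  calc N ^ (1 + ε) ≤ N ^ (4 / 5 + ρ - σ) * N ^ (1 / 5 + ε) := by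
        rw [R.hmul]; exact R.hmono (by linarith)
    _ ≤ nF X P * nC m M1 := mul_le_mul R.hFlo R.hClo (R.pp _).le (Nat.cast_nonneg _)

lemma FQ (R : Raw ε ρ σ N m M1 X P) (h : σ ≤ 2 / 5 + ρ) : 16 * nF X P ≤ nQ X P := by
  have h1W := R.h1W
  have h1 : nF X P ≤ P ^ 2 / X := Nat.div_le_self _ _
  have h2 : P * (P ^ 2 / X) ≤ P ^ 3 / X := by
    have := Nat.mul_div_le_mul_div_assoc P (P ^ 2) X
    calc P * (P ^ 2 / X) ≤ P * P ^ 2 / X := this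
      _ = P ^ 3 / X := by ring_nf
  have h3 : 16 ≤ P := by
    have : (16 : ℝ) ≤ P := by
      refine le_trans ?_ R.hPlo
      exact le_trans (by linarith : (16 : ℝ) ≤ N ^ σ) (R.hmono (by linarith))
    exact_mod_cast this
  unfold nQ
  calc 16 * nF X P ≤ P * (P ^ 2 / X) := Nat.mul_le_mul h3 h1
    _ ≤ _ := h2

lemma F3 (R : Raw ε ρ σ N m M1 X P) (h : 2 * σ ≤ 4 / 5 + ρ) : 3 ^ m ≤ nF X P := by
  obtain ⟨-, h3m, -, -, -, -, -⟩ := R.hqs 0 (by omega)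
  have : (3 : ℝ) ^ m ≤ nF X P := h3m.trans (le_trans (R.hmono (by linarith)) R.hFlo)
  exact_mod_cast this

lemma CF (R : Raw ε ρ σ N m M1 X P) (h : 3 * σ ≤ 1 + ε + ρ) : 16 * m ≤ nC m M1 * nF X P := by
  obtain ⟨-, -, -, -, -, hmW, -⟩ := R.hqs 0 (by omega)
  have h1W := R.h1W
  have : (16 : ℝ) * m ≤ nC m M1 * nF X P := by
    calc (16 : ℝ) * m ≤ N ^ σ * N ^ σ := mul_le_mul (by linarith) hmW (Nat.cast_nonneg _) R.hW0.le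
      _ ≤ N ^ (1 / 5 + ε) * N ^ (4 / 5 + ρ - σ) := by
          rw [R.hmul, R.hmul]; exact R.hmono (by linarith)
      _ ≤ _ := mul_le_mul R.hClo R.hFlo (R.pp _).le (Nat.cast_nonneg _)
  exact_mod_cast this

lemma gen (R : Raw ε ρ σ N m M1 X P) {C1 : ℝ} (hC1 : |C1| ≤ N ^ σ) (hlog : 10 * log N ≤ N ^ σ)
    (h : 6 * σ ≤ ρ) (h' : 2 / 5 + ρ + σ ≤ 1) (h0 : 0 ≤ 2 / 5 + ρ) {k : ℕ} (hk : k ≤ 32 * m ^ 5 + 4) :
    C1 * ((k : ℝ) + 1) ^ 3 * ((nE k : ℝ) + 1) * nG1 k m * log P ≤ X := by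
  obtain ⟨hG1, -, -, hk4, hE, -, -⟩ := R.hqs k hk
  have hN1 := R.hN1
  have hN0 := R.hN0
  have hP1 : (1 : ℝ) ≤ P := (one_le_rpow hN1 h0).trans R.hPlo
  have hlogP : log P ≤ N ^ σ := by
    have h1 : log P ≤ log N := by
      apply Real.log_le_log (by linarith)
      refine R.hPhi.trans ?_
      calc N ^ (2 / 5 + ρ + σ) ≤ N ^ (1 : ℝ) := R.hmono h'
        _ = N := rpow_one N
    have h2 : 0 ≤ log N := Real.log_nonneg hN1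
    linarith
  have hlogP0 : 0 ≤ log P := Real.log_nonneg hP1
  have hk0 : (0 : ℝ) ≤ k := Nat.cast_nonneg _
  have hk3 : ((k : ℝ) + 1) ^ 3 ≤ N ^ σ := by
    refine le_trans ?_ hk4
    calc ((k : ℝ) + 1) ^ 3 ≤ ((k : ℝ) + 2) ^ 3 := pow_le_pow_left₀ (by positivity) (by linarith) 3
      _ ≤ ((k : ℝ) + 2) ^ 4 := pow_le_pow_right₀ (by linarith) (by norm_num)
  calc C1 * ((k : ℝ) + 1) ^ 3 * ((nE k : ℝ) + 1) * nG1 k m * log P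
      ≤ N ^ σ * N ^ σ * N ^ σ * N ^ σ * N ^ σ := by
        apply mul_le_mul _ hlogP hlogP0 (by positivity)
        apply mul_le_mul _ hG1 (Nat.cast_nonneg _) (by positivity)
        apply mul_le_mul _ hE (by positivity) (by positivity)
        apply mul_le_mul ((le_abs_self C1).trans hC1) hk3 (by positivity) (by positivity)
    _ = N ^ (5 * σ) := by rw [R.hmul, R.hmul, R.hmul, R.hmul]; congr 1; ring
    _ ≤ N ^ (ρ - σ) := R.hmono (by linarith)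
    _ ≤ X := R.hXlo

lemma GQ (R : Raw ε ρ σ N m M1 X P) (h : 7 * σ ≤ 2 / 5) {k : ℕ} (hk : k ≤ 32 * m ^ 5 + 4) :
    16 * (k ^ 2 * m * (nG1 k m * P ^ 2)) ≤ nQ X P := by
  obtain ⟨hG1, -, -, hk4, -, hmW, -⟩ := R.hqs k hk
  have h1W := R.h1W
  have hW0 := R.hW0
  have hN0 := R.hN0
  have hk0 : (0 : ℝ) ≤ k := Nat.cast_nonneg _
  have hk2 : ((k : ℝ)) ^ 2 ≤ N ^ σ := by
    refine le_trans ?_ hk4
    calc (k : ℝ) ^ 2 ≤ ((k : ℝ) + 2) ^ 2 := pow_le_pow_left₀ hk0 (by linarith) 2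
      _ ≤ ((k : ℝ) + 2) ^ 4 := pow_le_pow_right₀ (by linarith) (by norm_num)
  have : (16 : ℝ) * ((k : ℝ) ^ 2 * m * (nG1 k m * (P : ℝ) ^ 2)) ≤ nQ X P := by
    calc (16 : ℝ) * ((k : ℝ) ^ 2 * m * (nG1 k m * (P : ℝ) ^ 2))
        ≤ N ^ σ * (N ^ σ * N ^ σ * (N ^ σ * N ^ (4 / 5 + 2 * ρ + 2 * σ))) := by
          apply mul_le_mul (by linarith) _ (by positivity) hW0.le
          apply mul_le_mul _ _ (by positivity) (by positivity)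
          · exact mul_le_mul hk2 hmW (Nat.cast_nonneg _) hW0.le
          · exact mul_le_mul hG1 R.hP2 (by positivity) hW0.le
      _ = N ^ (4 / 5 + 2 * ρ + 6 * σ) := by
          rw [R.hmul, R.hmul, R.hmul, R.hmul]; congr 1; ring
      _ ≤ N ^ (6 / 5 + 2 * ρ - σ) := R.hmono (by linarith)
      _ ≤ _ := R.hQlo
  exact_mod_cast this

lemma loss (R : Raw ε ρ σ N m M1 X P) {η : ℝ} (h : ε + 2 * ρ + 6 * σ ≤ η)
    (h' : 3 * (7 / 5 + η) + 5 * σ ≤ 5) {k : ℕ} (hk : k ≤ 32 * m ^ 5 + 4) :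
    (2 : ℝ) ^ (k ^ 2 * m + m + 4) * ((k : ℝ) + 2) ^ 4 * (8 * (nn m M1 X P : ℝ)) ^ 3 ≤
      N ^ (5 : ℝ) := by
  obtain ⟨-, -, -, hk4, -, -, h2k⟩ := R.hqs k hk
  have h1W := R.h1W
  have hW0 := R.hW0
  have hN0 := R.hN0
  have hn3 : (8 * (nn m M1 X P : ℝ)) ^ 3 ≤ N ^ (3 * (7 / 5 + η) + 3 * σ) := by
    calc (8 * (nn m M1 X P : ℝ)) ^ 3 ≤ (N ^ σ * N ^ (7 / 5 + η)) ^ 3 := by
          apply pow_le_pow_left₀ (by positivity)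
          exact mul_le_mul (by linarith) (R.nhi h) (Nat.cast_nonneg _) hW0.le
      _ = _ := by
          rw [R.hmul, ← rpow_natCast, ← rpow_mul hN0.le]; congr 1; push_cast; ring
  calc (2 : ℝ) ^ (k ^ 2 * m + m + 4) * ((k : ℝ) + 2) ^ 4 * (8 * (nn m M1 X P : ℝ)) ^ 3
      ≤ N ^ σ * N ^ σ * N ^ (3 * (7 / 5 + η) + 3 * σ) := by
        apply mul_le_mul _ hn3 (by positivity) (by positivity)
        exact mul_le_mul h2k hk4 (by positivity) hW0.le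
    _ = N ^ (3 * (7 / 5 + η) + 5 * σ) := by rw [R.hmul, R.hmul]; congr 1; ring
    _ ≤ N ^ (5 : ℝ) := R.hmono h'

lemma x0 (R : Raw ε ρ σ N m M1 X P) {τ : ℝ} (h : 3 / 2 * ε - ρ + 9 / 2 * σ ≤ -τ) (M : ℕ) (s : ℝ)
    (hs0 : 0 ≤ s) (hs : s ≤ N ^ ε * √(N / M)) (hM : nC m M1 * nQ X P ≤ 32 * m * M) :
    2 * ((nC m M1 : ℝ) * 3 ^ m) * s ≤ N ^ (-τ) := by
  obtain ⟨-, h3m, -, -, -, hmW, -⟩ := R.hqs 0 (by omega)
  have h1W := R.h1W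
  have hW0 := R.hW0
  have hN0 := R.hN0
  have h32 : (32 : ℝ) ≤ N ^ σ := by linarith
  have hA : N ^ (7 / 5 + ε + 2 * ρ - σ) ≤ (nC m M1 : ℝ) * nQ X P := by
    calc N ^ (7 / 5 + ε + 2 * ρ - σ) = N ^ (1 / 5 + ε) * N ^ (6 / 5 + 2 * ρ - σ) := by
          rw [R.hmul]; congr 1; ring
      _ ≤ _ := mul_le_mul R.hClo R.hQlo (R.pp _).le (Nat.cast_nonneg _)
  have hM' : (nC m M1 : ℝ) * nQ X P ≤ 32 * m * M := by exact_mod_cast hM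
  have h1 := sqrt_div_le R.hN1 hmW h32 hA hM'
  have hs' : s ≤ N ^ ε * N ^ ((1 - (7 / 5 + ε + 2 * ρ - σ) + 2 * σ) / 2) :=
    hs.trans (mul_le_mul_of_nonneg_left h1 (R.pp _).le)
  calc 2 * ((nC m M1 : ℝ) * 3 ^ m) * s
      ≤ N ^ σ * (N ^ (1 / 5 + ε + σ) * N ^ σ) *
        (N ^ ε * N ^ ((1 - (7 / 5 + ε + 2 * ρ - σ) + 2 * σ) / 2)) := by
        apply mul_le_mul _ hs' hs0 (by positivity)
        apply mul_le_mul (by linarith) _ (by positivity) hW0.le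
        exact mul_le_mul R.hChi h3m (by positivity) (by positivity)
    _ = N ^ (3 / 2 * ε - ρ + 9 / 2 * σ) := by
        rw [R.hmul, R.hmul, R.hmul, R.hmul]; congr 1; ring
    _ ≤ N ^ (-τ) := R.hmono h

lemma xP (R : Raw ε ρ σ N m M1 X P) {τ : ℝ} (h : 1 / 2 * ε - 1 / 2 * ρ + 7 / 2 * σ ≤ -τ) (M : ℕ)
    (s : ℝ) (hs0 : 0 ≤ s) (hs : s ≤ N ^ ε * √(N / M)) (hM : nC m M1 * nF X P ≤ 32 * m * M) :
    2 * (nLb m : ℝ) * s ≤ N ^ (-τ) := by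
  obtain ⟨-, -, hLb, -, -, hmW, -⟩ := R.hqs 0 (by omega)
  have h1W := R.h1W
  have hW0 := R.hW0
  have hN0 := R.hN0
  have h32 : (32 : ℝ) ≤ N ^ σ := by linarith
  have hA : N ^ (1 + ε + ρ - σ) ≤ (nC m M1 : ℝ) * nF X P := by
    calc N ^ (1 + ε + ρ - σ) = N ^ (1 / 5 + ε) * N ^ (4 / 5 + ρ - σ) := by
          rw [R.hmul]; congr 1; ring
      _ ≤ _ := mul_le_mul R.hClo R.hFlo (R.pp _).le (Nat.cast_nonneg _)
  have hM' : (nC m M1 : ℝ) * nF X P ≤ 32 * m * M := by exact_mod_cast hM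
  have h1 := sqrt_div_le R.hN1 hmW h32 hA hM'
  have hs' : s ≤ N ^ ε * N ^ ((1 - (1 + ε + ρ - σ) + 2 * σ) / 2) :=
    hs.trans (mul_le_mul_of_nonneg_left h1 (R.pp _).le)
  calc 2 * (nLb m : ℝ) * s
      ≤ N ^ σ * N ^ σ * (N ^ ε * N ^ ((1 - (1 + ε + ρ - σ) + 2 * σ) / 2)) := by
        apply mul_le_mul _ hs' hs0 (by positivity)
        exact mul_le_mul (by linarith) hLb (Nat.cast_nonneg _) hW0.le
    _ = N ^ (1 / 2 * ε - 1 / 2 * ρ + 7 / 2 * σ) := by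
        rw [R.hmul, R.hmul, R.hmul]; congr 1; ring
    _ ≤ N ^ (-τ) := R.hmono h

lemma xE (R : Raw ε ρ σ N m M1 X P) {τ η : ℝ} (h : 3 / 2 * ε + ρ - η / 2 + 13 / 2 * σ ≤ -τ)
    {k : ℕ} (hk : k ≤ 32 * m ^ 5 + 4) (M : ℕ)
    (s : ℝ) (hs0 : 0 ≤ s) (hs : s ≤ N ^ ε * √(N / M))
    (hM : N ^ (8 / 5 + η) * nn m M1 X P ≤ 32 * m * M) :
    2 * ((nC m M1 : ℝ) * (nG1 k m * (P : ℝ) ^ 2)) * s ≤ N ^ (-τ) := by
  obtain ⟨hG1, -, -, -, -, hmW, -⟩ := R.hqs k hk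
  have h1W := R.h1W
  have hW0 := R.hW0
  have hN0 := R.hN0
  have h32 : (32 : ℝ) ≤ N ^ σ := by linarith
  have hA : N ^ (3 + η + ε + 2 * ρ - σ) ≤ N ^ (8 / 5 + η) * nn m M1 X P := by
    calc N ^ (3 + η + ε + 2 * ρ - σ) = N ^ (8 / 5 + η) * N ^ (7 / 5 + ε + 2 * ρ - σ) := by
          rw [R.hmul]; congr 1; ring
      _ ≤ _ := mul_le_mul_of_nonneg_left R.hnlo (R.pp _).le
  have h1 := sqrt_div_le R.hN1 hmW h32 hA hM
  have hs' : s ≤ N ^ ε * N ^ ((1 - (3 + η + ε + 2 * ρ - σ) + 2 * σ) / 2) :=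
    hs.trans (mul_le_mul_of_nonneg_left h1 (R.pp _).le)
  calc 2 * ((nC m M1 : ℝ) * (nG1 k m * (P : ℝ) ^ 2)) * s
      ≤ N ^ σ * (N ^ (1 / 5 + ε + σ) * (N ^ σ * N ^ (4 / 5 + 2 * ρ + 2 * σ))) *
        (N ^ ε * N ^ ((1 - (3 + η + ε + 2 * ρ - σ) + 2 * σ) / 2)) := by
        apply mul_le_mul _ hs' hs0 (by positivity)
        apply mul_le_mul (by linarith) _ (by positivity) hW0.le
        apply mul_le_mul R.hChi _ (by positivity) (by positivity)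
        exact mul_le_mul hG1 R.hP2 (by positivity) hW0.le
    _ = N ^ (3 / 2 * ε + ρ - η / 2 + 13 / 2 * σ) := by
        rw [R.hmul, R.hmul, R.hmul, R.hmul, R.hmul]; congr 1; ring
    _ ≤ N ^ (-τ) := R.hmono h

end Raw

/-- **The numbers of the T-step.** -/
theorem numT {ε η : ℝ} (hη0 : 0 < η) (hη1 : η ≤ 1 / 10) (hε0 : 0 < ε) (hε : ε ≤ η / 50)
    (B C1 : ℝ) (hB : 0 ≤ B) (P0 : ℕ) :
    ∀ᶠ N : ℝ in atTop, ∃ m M1 X P : ℕ, NumT ε η B C1 N P0 m M1 X P := by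
  obtain ⟨σ, hσ⟩ : ∃ σ, σ = η / 1000 := ⟨_, rfl⟩
  obtain ⟨ρ, hρ⟩ : ∃ ρ, ρ = 100 * σ := ⟨_, rfl⟩
  obtain ⟨τ, hτ⟩ : ∃ τ, τ = η / 50 := ⟨_, rfl⟩
  have hσ0 : 0 < σ := by rw [hσ]; positivity
  have hτ0 : 0 < τ := by rw [hτ]; positivity
  obtain ⟨c, hc⟩ : ∃ c, c = (B + 8) / τ := ⟨_, rfl⟩
  have hc0 : 0 < c := by rw [hc]; positivity
  have hcτ : B + 8 ≤ τ * c := by rw [hc]; field_simp; exact le_rfl
  filter_upwards [ev_raw hσ0 hρ hε0 (by linarith) hc0, const_le_rpow |C1| hσ0, log_le_rpow 10 hσ0,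
    const_le_rpow (P0 : ℝ) (by norm_num : (0 : ℝ) < 2 / 5)] with N hR hC1 hlog hP0
  obtain ⟨M1, X, P, R, hNe⟩ := hR
  have hP0P : P0 ≤ P := by
    have : (P0 : ℝ) ≤ P := hP0.trans (le_trans (R.hmono (by linarith)) R.hPlo)
    exact_mod_cast this
  have hkill : ∀ (x L : ℝ), 0 ≤ x → x ≤ N ^ (-τ) → L ≤ N ^ (8 : ℝ) →
      L * x ^ (mm c N) ≤ exp (-(B * (log N) ^ (41 / 40 : ℝ))) := fun x L hx0 hx hL =>
    kill_le hcτ hτ0.le (by norm_num) hNe hx0 hx hL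
  refine ⟨mm c N, M1, X, P, ?_⟩
  exact
    { m1 := R.hmm
      M1_lo := R.hM1lo
      lbC := R.lbC
      X1 := R.hX1
      XP := R.XP (by linarith)
      P0P := hP0P
      nlo := R.nlo (by linarith)
      nhi := R.nhi (by linarith)
      iso := R.iso (by linarith)
      FQ := R.FQ (by linarith)
      F3 := R.F3 (by linarith)
      CF := R.CF (by linarith)
      gen := fun k _ hk => R.gen hC1 hlog (by linarith) (by linarith) (by linarith) hk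
      GQ := fun k _ hk => R.GQ (by linarith) hk
      loss := fun k _ hk => R.loss (η := η) (by linarith) (by linarith) hk
      kill0 := fun M s L hs0 hs hM hL => hkill _ _ (by positivity)
        (R.x0 (by linarith) M s hs0 hs hM) hL
      killP := fun M s L hs0 hs hM hL => hkill _ _ (by positivity)
        (R.xP (by linarith) M s hs0 hs hM) hL
      killE := fun k _ hk M s L hs0 hs hM hL => hkill _ _ (by positivity)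
        (R.xE (by linarith) hk M s hs0 hs hM) hL }

end Vale.Agent.P321.H505
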