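import Mathlib

/-!
# P321, lower bound: the parity relation lemma (PR)

For every `m` there are `w ≠ w'` and two lists `pos`, `neg` of naturals, of lengths `O(m^5)` and
with entries `≤ exp(O(m^4))`, such that `w^i + w'^i = 2 ∑_{pos} x^i - 2 ∑_{neg} x^i` for all
`i < m`.
-/

namespace Vale.Agent.P321.H505

open Finset

/-- The node `w + 1` modulo `p`. -/
private def nd (p k : ℕ) (w : Fin k) : ZMod p := (((w : ℕ) + 1 : ℕ) : ZMod p)

private lemma nd_ne {p k : ℕ} (hk : k < p) (w : Fin k) : nd p k w ≠ 0 := by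
  unfold nd
  rw [Ne, ZMod.natCast_eq_zero_iff]
  intro h
  have := Nat.le_of_dvd (Nat.succ_pos _) h
  have := w.2
  omega

private lemma nd_inj {p k : ℕ} (hk : k < p) : Function.Injective (nd p k) := by
  intro a b h
  unfold nd at h
  rw [ZMod.natCast_eq_natCast_iff'] at h
  have ha := a.2
  have hb := b.2
  rw [Nat.mod_eq_of_lt (by omega), Nat.mod_eq_of_lt (by omega)] at h
  exact Fin.ext (by omega)

private lemma solve {p k : ℕ} [Fact p.Prime] (hk : k < p) (b : Fin k → ZMod p) :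
    ∃ y : Fin k → ZMod p, ∀ j : Fin k, ∑ w : Fin k, y w * nd p k w ^ (j : ℕ) = b j := by
  have hdet : (Matrix.vandermonde (nd p k)).det ≠ 0 :=
    Matrix.det_vandermonde_ne_zero_iff.2 (nd_inj hk)
  have hu : IsUnit (Matrix.vandermonde (nd p k)).det := isUnit_iff_ne_zero.2 hdet
  refine ⟨Matrix.vecMul b (Matrix.vandermonde (nd p k))⁻¹, fun j => ?_⟩
  have h := Matrix.vecMul_vecMul b (Matrix.vandermonde (nd p k))⁻¹ (Matrix.vandermonde (nd p k))
  rw [Matrix.nonsing_inv_mul _ hu, Matrix.vecMul_one] at h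
  have h2 := congrFun h j
  rw [Matrix.vecMul_eq_sum] at h2
  simpa [Finset.sum_apply, Matrix.vandermonde_apply] using h2

/-- The multiplicities: modulo `p` every vector is a combination of power vectors. -/
private lemma mults {p k : ℕ} [hp : Fact p.Prime] (hk : k < p) (h : ℕ → ℤ) :
    ∃ c : Fin k → ℕ, (∀ w, 1 ≤ c w ∧ c w ≤ p) ∧
      ∀ j : Fin k, (p : ℤ) ∣ h (j + 1) - ∑ w : Fin k, (c w : ℤ) * ((w : ℕ) + 1 : ℤ) ^ ((j : ℕ) + 1) := by
  obtain ⟨y, hy⟩ := solve hk (fun j : Fin k => ((h (j + 1) : ℤ) : ZMod p))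
  have hp0 : 0 < p := hp.out.pos
  have : NeZero p := ⟨hp0.ne'⟩
  refine ⟨fun w => if (y w / nd p k w).val = 0 then p else (y w / nd p k w).val, ?_, ?_⟩
  · intro w
    dsimp only
    split_ifs with h0
    · exact ⟨hp0, le_rfl⟩
    · exact ⟨Nat.pos_of_ne_zero h0, (ZMod.val_lt _).le⟩
  · intro j
    have hc : ∀ w : Fin k, (((if (y w / nd p k w).val = 0 then p else (y w / nd p k w).val : ℕ) : ℕ)
        : ZMod p) = y w / nd p k w := by
      intro w
      split_ifs with h0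
      · rw [ZMod.val_eq_zero] at h0
        simp [h0]
      · simp
    rw [← ZMod.intCast_zmod_eq_zero_iff_dvd]
    push_cast
    rw [sub_eq_zero, ← hy j]
    refine Finset.sum_congr rfl fun w _ => ?_
    have h1 := hc w
    push_cast at h1
    rw [h1, pow_succ]
    have hn := nd_ne hk w
    have hn' : nd p k w = ((w : ℕ) : ZMod p) + 1 := by unfold nd; push_cast; ring
    rw [← hn']
    field_simp

/-- Derivative step: the Jacobian `i w^(i-1)` is invertible modulo `p`. -/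
private lemma jac {p k : ℕ} [hp : Fact p.Prime] (hk : k < p) (b : Fin k → ℤ) :
    ∃ y : Fin k → ℕ, (∀ w, y w < p) ∧
      ∀ j : Fin k, (p : ℤ) ∣ b j - ∑ w : Fin k, ((j : ℕ) + 1 : ℤ) * ((w : ℕ) + 1 : ℤ) ^ (j : ℕ) *
        (y w : ℤ) := by
  obtain ⟨y, hy⟩ := solve hk (fun j : Fin k => ((b j : ℤ) : ZMod p) / nd p k j)
  have hp0 : 0 < p := hp.out.pos
  have : NeZero p := ⟨hp0.ne'⟩
  refine ⟨fun w => (y w).val, fun w => ZMod.val_lt _, fun j => ?_⟩
  rw [← ZMod.intCast_zmod_eq_zero_iff_dvd]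
  push_cast
  rw [sub_eq_zero]
  have hj := hy j
  have hn := nd_ne hk j
  rw [eq_div_iff hn] at hj
  rw [← hj, Finset.sum_mul]
  refine Finset.sum_congr rfl fun w _ => ?_
  have hw' : nd p k w = ((w : ℕ) : ZMod p) + 1 := by unfold nd; push_cast; ring
  have hj' : nd p k j = ((j : ℕ) : ZMod p) + 1 := by unfold nd; push_cast; ring
  rw [← hw', ← hj']
  simp
  ring

/-- First order expansion of a power. -/
private lemma pow_lift (x y : ℤ) (P : ℤ) (i : ℕ) :
    ∃ r : ℤ, (x + P * y) ^ (i + 1) = x ^ (i + 1) + (i + 1) * x ^ i * (P * y) + P ^ 2 * r := by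
  induction i with
  | zero => exact ⟨0, by simp⟩
  | succ i ih =>
    obtain ⟨r, hr⟩ := ih
    refine ⟨x * r + P * y * r + (i + 1) * x ^ i * y ^ 2, ?_⟩
    rw [pow_succ, hr]
    push_cast
    ring

/-- The lifting: modulo every `p^t` (`t ≥ 1`). -/
private lemma lift {p k : ℕ} [hp : Fact p.Prime] (hk : k < p) (h : ℕ → ℤ) (c : Fin k → ℕ)
    (hc : ∀ j : Fin k, (p : ℤ) ∣ h (j + 1) -
      ∑ w : Fin k, (c w : ℤ) * ((w : ℕ) + 1 : ℤ) ^ ((j : ℕ) + 1)) (t : ℕ) :
    ∃ x : Fin k → ℕ, (∀ w, x w < p ^ (t + 1)) ∧ (∀ w, (p : ℤ) ∣ (x w : ℤ) - ((w : ℕ) + 1)) ∧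
      ∀ j : Fin k, ((p : ℤ) ^ (t + 1)) ∣ h (j + 1) -
        ∑ w : Fin k, ((x w : ℤ) ^ ((j : ℕ) + 1) +
          ((c w : ℤ) - 1) * ((w : ℕ) + 1 : ℤ) ^ ((j : ℕ) + 1)) := by
  have hp0 : 0 < p := hp.out.pos
  induction t with
  | zero =>
    refine ⟨fun w => (w : ℕ) + 1, fun w => ?_, fun w => by simp, fun j => ?_⟩
    · have := w.2
      simp only [zero_add, pow_one]
      omega
    · have := hc j
      simp only [zero_add, pow_one]
      convert this using 2
      refine Finset.sum_congr rfl fun w _ => ?_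
      push_cast
      linear_combination
  | succ t ih =>
    obtain ⟨x, hx, hxm, hxs⟩ := ih
    choose q hq using hxs
    obtain ⟨y, hy, hys⟩ := jac hk q
    refine ⟨fun w => x w + p ^ (t + 1) * y w, fun w => ?_, fun w => ?_, fun j => ?_⟩
    · have h1 := hx w
      have h2 := hy w
      calc x w + p ^ (t + 1) * y w < p ^ (t + 1) + p ^ (t + 1) * y w := by omega
        _ = p ^ (t + 1) * (y w + 1) := by ring
        _ ≤ p ^ (t + 1) * p := Nat.mul_le_mul_left _ h2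
        _ = p ^ (t + 1 + 1) := by ring
    · have h1 := hxm w
      have h2 : (p : ℤ) ∣ (p : ℤ) ^ (t + 1) * (y w : ℤ) :=
        Dvd.dvd.mul_right (dvd_pow_self _ (by omega)) _
      have h3 := dvd_add h1 h2
      have e : (((x w + p ^ (t + 1) * y w : ℕ) : ℤ)) - ((w : ℕ) + 1) =
          ((x w : ℤ) - ((w : ℕ) + 1)) + (p : ℤ) ^ (t + 1) * (y w : ℤ) := by
        push_cast; ring
      rw [e]; exact h3
    · -- the power sums
      have hj := hys j
      obtain ⟨z, hz⟩ := hj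
      -- expansion of each atom
      have hex : ∀ w : Fin k, ∃ r : ℤ, ((x w : ℤ) + (p : ℤ) ^ (t + 1) * (y w : ℤ)) ^ ((j : ℕ) + 1)
          = (x w : ℤ) ^ ((j : ℕ) + 1) + (p : ℤ) ^ (t + 1) *
            (((j : ℕ) + 1 : ℤ) * ((w : ℕ) + 1 : ℤ) ^ (j : ℕ) * (y w : ℤ))
            + (p : ℤ) ^ (t + 1 + 1) * r := by
        intro w
        obtain ⟨r, hr⟩ := pow_lift (x w : ℤ) (y w : ℤ) ((p : ℤ) ^ (t + 1)) (j : ℕ)
        obtain ⟨s, hs⟩ : (p : ℤ) ∣ (x w : ℤ) ^ (j : ℕ) - ((w : ℕ) + 1 : ℤ) ^ (j : ℕ) :=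
          (hxm w).trans (sub_dvd_pow_sub_pow _ _ _)
        refine ⟨((j : ℕ) + 1 : ℤ) * s * (y w : ℤ) + (p : ℤ) ^ t * r, ?_⟩
        rw [hr]
        have hs' : (x w : ℤ) ^ (j : ℕ) = ((w : ℕ) + 1 : ℤ) ^ (j : ℕ) + p * s := by linarith
        rw [hs']
        ring
      choose r hr using hex
      refine ⟨z - ∑ w, r w, ?_⟩
      have e1 : ∑ w : Fin k, ((((x w + p ^ (t + 1) * y w : ℕ) : ℤ)) ^ ((j : ℕ) + 1) +
          ((c w : ℤ) - 1) * ((w : ℕ) + 1 : ℤ) ^ ((j : ℕ) + 1)) =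
          ∑ w : Fin k, ((x w : ℤ) ^ ((j : ℕ) + 1) +
          ((c w : ℤ) - 1) * ((w : ℕ) + 1 : ℤ) ^ ((j : ℕ) + 1)) +
          (p : ℤ) ^ (t + 1) * ∑ w : Fin k, (((j : ℕ) + 1 : ℤ) * ((w : ℕ) + 1 : ℤ) ^ (j : ℕ) *
            (y w : ℤ)) + (p : ℤ) ^ (t + 1 + 1) * ∑ w, r w := by
        rw [Finset.mul_sum, Finset.mul_sum, ← Finset.sum_add_distrib, ← Finset.sum_add_distrib]
        refine Finset.sum_congr rfl fun w _ => ?_
        push_cast
        rw [hr w]
        ring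
      rw [e1]
      have h1 := hq j
      have h2 : h (↑j + 1) = ∑ w : Fin k, ((x w : ℤ) ^ ((j : ℕ) + 1) +
          ((c w : ℤ) - 1) * ((w : ℕ) + 1 : ℤ) ^ ((j : ℕ) + 1)) + (p : ℤ) ^ (t + 1) * q j := by
        linarith
      rw [h2]
      have h3 : q j = ∑ w : Fin k, (((j : ℕ) + 1 : ℤ) * ((w : ℕ) + 1 : ℤ) ^ (j : ℕ) *
            (y w : ℤ)) + p * z := by linarith
      rw [h3]
      ring

/-- One Hensel step as a list. -/
private lemma hensel {p k : ℕ} [hp : Fact p.Prime] (hk1 : 1 ≤ k) (hk : k < p) (h : ℕ → ℤ) :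
    ∃ A : List ℕ, A.length = k * p ∧ (∀ x ∈ A, x < p ^ k) ∧
      ∀ i, 1 ≤ i → i ≤ k → ((p : ℤ) ^ k) ∣ h i - (A.map (fun x : ℕ => (x : ℤ) ^ i)).sum := by
  obtain ⟨c, hc1, hc⟩ := mults hk h
  obtain ⟨t, rfl⟩ : ∃ t, k = t + 1 := ⟨k - 1, by omega⟩
  obtain ⟨x, hx, -, hxs⟩ := lift hk h c hc t
  have hp0 : 0 < p := hp.out.pos
  let a : Fin (t + 1) × Fin p → ℕ := fun u =>
    if (u.2 : ℕ) = 0 then x u.1 else if (u.2 : ℕ) < c u.1 then (u.1 : ℕ) + 1 else 0
  refine ⟨(Finset.univ : Finset (Fin (t + 1) × Fin p)).toList.map a, ?_, ?_, ?_⟩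
  · simp
  · intro y hy
    rw [List.mem_map] at hy
    obtain ⟨u, -, rfl⟩ := hy
    have h1 := u.1.2
    have h2 : p ≤ p ^ (t + 1) := Nat.le_self_pow (by omega) p
    simp only [a]
    split_ifs
    · exact hx _
    · omega
    · positivity
  · intro i hi1 hik
    obtain ⟨j, rfl⟩ : ∃ j, i = j + 1 := ⟨i - 1, by omega⟩
    have h1 := hxs ⟨j, by omega⟩
    simp only at h1
    rw [List.map_map, Finset.sum_map_toList, Fintype.sum_prod_type]
    have e : ∀ w : Fin (t + 1), ∑ y : Fin p, ((fun x : ℕ => (x : ℤ) ^ (j + 1)) ∘ a) (w, y) =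
        (x w : ℤ) ^ (j + 1) + ((c w : ℤ) - 1) * ((w : ℕ) + 1 : ℤ) ^ (j + 1) := by
      intro w
      obtain ⟨hcw, hcw'⟩ := hc1 w
      have e1 : ∀ y : Fin p, ((fun x : ℕ => (x : ℤ) ^ (j + 1)) ∘ a) (w, y) =
          (fun n : ℕ => if n = 0 then (x w : ℤ) ^ (j + 1) else
            if n < c w then ((w : ℕ) + 1 : ℤ) ^ (j + 1) else 0) (y : ℕ) := by
        intro y
        simp only [a, Function.comp]
        split_ifs <;> simp
      rw [Finset.sum_congr rfl fun y _ => e1 y, Fin.sum_univ_eq_sum_range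
        (fun n : ℕ => if n = 0 then (x w : ℤ) ^ (j + 1) else
            if n < c w then ((w : ℕ) + 1 : ℤ) ^ (j + 1) else 0) p]
      obtain ⟨p', rfl⟩ : ∃ p', p = p' + 1 := ⟨p - 1, by omega⟩
      rw [Finset.sum_range_succ']
      simp only [if_true, Nat.succ_ne_zero, if_false]
      rw [add_comm]
      congr 1
      rw [← Finset.sum_filter, Finset.sum_const]
      have : ((Finset.range p').filter (fun n => n + 1 < c w)) = Finset.range (c w - 1) := by
        ext n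
        simp only [Finset.mem_filter, Finset.mem_range]
        omega
      rw [this, Finset.card_range, nsmul_eq_mul]
      push_cast [Nat.cast_sub hcw]
      ring
    rw [Finset.sum_congr rfl fun w _ => e w]
    exact h1

/-- Iterated Hensel step. -/
private lemma iter {p k : ℕ} [hp : Fact p.Prime] (hk1 : 1 ≤ k) (hk : k < p) (G : ℕ) :
    ∀ h : ℕ → ℤ, ∃ (A : List ℕ) (H : ℕ → ℤ), A.length = G * (k * p) ∧
      (∀ x ∈ A, x < p ^ (k + G)) ∧
      (∀ i, 1 ≤ i → i ≤ k → h i = (A.map (fun x : ℕ => (x : ℤ) ^ i)).sum + (p : ℤ) ^ (i * G) * H i) ∧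
      (∀ i, 1 ≤ i → i ≤ k → (p : ℤ) ^ (i * G) * |H i| ≤
        |h i| + (k * p ^ (k * k + 1) : ℤ) * ((p : ℤ) ^ (i * G) - 1)) := by
  have hp2 : 2 ≤ p := hp.out.two_le
  induction G with
  | zero => intro h; exact ⟨[], h, by simp, by simp, by simp, by simp⟩
  | succ G ih =>
    intro h
    obtain ⟨A, hA, hAx, hAs⟩ := hensel hk1 hk h
    -- the quotient
    have hq : ∀ i, ∃ q : ℤ, 1 ≤ i → i ≤ k →
        h i - (A.map (fun x : ℕ => (x : ℤ) ^ i)).sum = (p : ℤ) ^ i * q := by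
      intro i
      by_cases hi : 1 ≤ i ∧ i ≤ k
      · obtain ⟨q, hq⟩ := (pow_dvd_pow (p : ℤ) hi.2).trans (hAs i hi.1 hi.2)
        exact ⟨q, fun _ _ => hq⟩
      · exact ⟨0, fun h1 h2 => absurd ⟨h1, h2⟩ hi⟩
    choose h' hh' using hq
    obtain ⟨A', H, hA', hAx', hAs', hH⟩ := ih h'
    refine ⟨A ++ A'.map (fun x => p * x), H, ?_, ?_, ?_, ?_⟩
    · rw [List.length_append, List.length_map, hA, hA']; ring
    · intro x hx
      rw [List.mem_append, List.mem_map] at hx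
      rcases hx with hx | ⟨y, hy, rfl⟩
      · exact (hAx x hx).trans_le (Nat.pow_le_pow_right (by omega) (by omega))
      · calc p * y < p * p ^ (k + G) := Nat.mul_lt_mul_of_pos_left (hAx' y hy) (by omega)
          _ = p ^ (k + (G + 1)) := by ring
    · intro i hi1 hik
      have h1 := hh' i hi1 hik
      have h2 := hAs' i hi1 hik
      rw [List.map_append, List.sum_append, List.map_map]
      have e : (A'.map ((fun x : ℕ => (x : ℤ) ^ i) ∘ fun x => p * x)).sum =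
          (p : ℤ) ^ i * (A'.map (fun x : ℕ => (x : ℤ) ^ i)).sum := by
        rw [← List.sum_map_mul_left]
        congr 1
        refine List.map_congr_left fun x _ => ?_
        simp only [Function.comp]
        push_cast
        ring
      rw [e]
      have e2 : (p : ℤ) ^ (i * (G + 1)) = (p : ℤ) ^ i * (p : ℤ) ^ (i * G) := by ring
      rw [e2]
      have : h i = (A.map (fun x : ℕ => (x : ℤ) ^ i)).sum + (p : ℤ) ^ i * h' i := by linarith
      rw [this, h2]
      ring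
    · intro i hi1 hik
      have h1 := hh' i hi1 hik
      have h2 := hH i hi1 hik
      set B : ℤ := (k * p ^ (k * k + 1) : ℤ) with hB
      have hB0 : 0 ≤ B := by positivity
      have hpi : (2 : ℤ) ≤ (p : ℤ) ^ i := by
        calc (2 : ℤ) ≤ (p : ℤ) := by exact_mod_cast hp2
          _ ≤ (p : ℤ) ^ i := le_self_pow₀ (by exact_mod_cast hp.out.one_le) (by omega)
      have hsum : |(A.map (fun x : ℕ => (x : ℤ) ^ i)).sum| ≤ B := by
        have h3 : 0 ≤ (A.map (fun x : ℕ => (x : ℤ) ^ i)).sum := by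
          apply List.sum_nonneg
          intro y hy
          rw [List.mem_map] at hy
          obtain ⟨x, -, rfl⟩ := hy
          positivity
        rw [abs_of_nonneg h3]
        have h4 : (A.map (fun x : ℕ => (x : ℤ) ^ i)).sum ≤ A.length • ((p : ℤ) ^ (k * k)) := by
          have := List.sum_le_card_nsmul (A.map (fun x : ℕ => (x : ℤ) ^ i)) ((p : ℤ) ^ (k * k)) ?_
          · simpa using this
          · intro y hy
            rw [List.mem_map] at hy
            obtain ⟨x, hx, rfl⟩ := hy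
            have h5 := (hAx x hx).le
            calc (x : ℤ) ^ i ≤ ((p : ℤ) ^ k) ^ i := by
                  apply pow_le_pow_left₀ (by positivity); exact_mod_cast h5
              _ = (p : ℤ) ^ (k * i) := by ring
              _ ≤ (p : ℤ) ^ (k * k) :=
                  pow_le_pow_right₀ (by exact_mod_cast hp.out.one_le) (Nat.mul_le_mul_left _ hik)
        rw [hA] at h4
        calc _ ≤ _ := h4
          _ = B := by rw [nsmul_eq_mul, hB]; push_cast; ring
      have hle : (p : ℤ) ^ i * |h' i| ≤ |h i| + B := by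
        have : (p : ℤ) ^ i * |h' i| = |(p : ℤ) ^ i * h' i| := by
          rw [abs_mul, abs_of_nonneg (by positivity : (0 : ℤ) ≤ (p : ℤ) ^ i)]
        rw [this, ← h1]
        calc |h i - (A.map (fun x : ℕ => (x : ℤ) ^ i)).sum| ≤ |h i| +
              |(A.map (fun x : ℕ => (x : ℤ) ^ i)).sum| := abs_sub _ _
          _ ≤ |h i| + B := by linarith
      have e2 : (p : ℤ) ^ (i * (G + 1)) = (p : ℤ) ^ i * (p : ℤ) ^ (i * G) := by ring
      rw [e2]
      have h6 : (p : ℤ) ^ i * ((p : ℤ) ^ (i * G) * |H i|) ≤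
          (p : ℤ) ^ i * (|h' i| + B * ((p : ℤ) ^ (i * G) - 1)) :=
        mul_le_mul_of_nonneg_left h2 (by positivity)
      nlinarith [mul_nonneg hB0 (by linarith : (0 : ℤ) ≤ (p : ℤ) ^ i - 2)]

/-- The relation, for a prime `k < p` and `2 F < p^G`, `F` the size of the box. -/
private lemma relation {p k : ℕ} [hp : Fact p.Prime] (hk1 : 1 ≤ k) (hk : k < p) (G : ℕ)
    (hG : 2 * (2 * (k * p ^ (k * k + 1) + 1) + 1) ^ k < p ^ G) :
    ∃ (w w' : ℕ) (A B : List ℕ), w ≠ w' ∧ w < p ^ G ∧ w' < p ^ G ∧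
      A.length = G * (k * p) ∧ B.length = G * (k * p) ∧
      (∀ x ∈ A, x < p ^ (k + G)) ∧ (∀ x ∈ B, x < p ^ (k + G)) ∧
      ∀ i, 1 ≤ i → i ≤ k → (w : ℤ) ^ i + (w' : ℤ) ^ i =
        2 * ((A.map (fun x : ℕ => (x : ℤ) ^ i)).sum + (w' : ℤ) ^ i) -
          2 * (B.map (fun x : ℕ => (x : ℤ) ^ i)).sum := by
  set M : ℕ := k * p ^ (k * k + 1) + 1 with hM
  set F : ℕ := (2 * M + 1) ^ k with hF
  choose A H hAl hAx hAs hH using fun h : ℕ → ℤ => iter hk1 hk G h
  -- the start vectors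
  let st : ℕ → ℕ → ℤ := fun e i => 2 ^ (i - 1) * (e : ℤ) ^ i
  have hst : ∀ e i, 1 ≤ i → 2 * st e i = ((2 * e : ℕ) : ℤ) ^ i := by
    intro e i hi
    obtain ⟨j, rfl⟩ : ∃ j, i = j + 1 := ⟨i - 1, by omega⟩
    simp only [st, Nat.add_sub_cancel]
    push_cast
    ring
  have hbd : ∀ e, e ≤ F → ∀ i, 1 ≤ i → i ≤ k → |H (st e) i| ≤ M := by
    intro e he i hi1 hik
    have h1 := hH (st e) i hi1 hik
    have h2 : |st e i| ≤ (p : ℤ) ^ (i * G) := by
      have h3 : (0 : ℤ) ≤ st e i := by simp only [st]; positivity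
      rw [abs_of_nonneg h3]
      have h4 := hst e i hi1
      have h5 : ((2 * e : ℕ) : ℤ) ^ i ≤ (p : ℤ) ^ (i * G) := by
        rw [mul_comm i G, pow_mul]
        apply pow_le_pow_left₀ (by positivity)
        have : 2 * e ≤ p ^ G := by omega
        exact_mod_cast this
      linarith
    have h6 : (0 : ℤ) < (p : ℤ) ^ (i * G) := by
      have := hp.out.pos
      positivity
    have h7 : (p : ℤ) ^ (i * G) * |H (st e) i| ≤ (p : ℤ) ^ (i * G) * (M : ℤ) := by
      have hMz : (M : ℤ) = (k * p ^ (k * k + 1) : ℤ) + 1 := by rw [hM]; push_cast; ring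
      rw [hMz]
      have h8 : (0 : ℤ) ≤ (k * p ^ (k * k + 1) : ℤ) := by positivity
      nlinarith
    exact le_of_mul_le_mul_left h7 h6
  -- pigeonhole
  let f : Fin (F + 1) → (Fin k → Fin (2 * M + 1)) := fun e i =>
    ⟨(H (st e) (i + 1) + M).toNat, by
      have := hbd e (by omega) (i + 1) (by omega) (by omega)
      rw [abs_le] at this
      omega⟩
  obtain ⟨e, e', hne, hfe⟩ : ∃ e e', e ≠ e' ∧ f e = f e' := by
    apply Fintype.exists_ne_map_eq_of_card_lt
    simp [hF]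
  have hHe : ∀ i, 1 ≤ i → i ≤ k → H (st e) i = H (st e') i := by
    intro i hi1 hik
    obtain ⟨j, rfl⟩ : ∃ j, i = j + 1 := ⟨i - 1, by omega⟩
    have h1 := congrFun hfe ⟨j, by omega⟩
    simp only [f, Fin.mk.injEq] at h1
    have h2 := hbd e (by omega) (j + 1) (by omega) (by omega)
    have h3 := hbd e' (by omega) (j + 1) (by omega) (by omega)
    rw [abs_le] at h2 h3
    omega
  refine ⟨2 * e, 2 * e', A (st e), A (st e'), ?_, ?_, ?_, hAl _, hAl _, hAx _, hAx _, ?_⟩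
  · intro h
    apply hne
    apply Fin.ext
    omega
  · have := e.2
    omega
  · have := e'.2
    omega
  · intro i hi1 hik
    have h1 := hst e i hi1
    have h2 := hst e' i hi1
    rw [← h1, ← h2]
    have h3 := hAs (st e) i hi1 hik
    have h4 := hAs (st e') i hi1 hik
    rw [hHe i hi1 hik] at h3
    linarith

/-- **Lemma PR** (explicit constants): for every `m ≥ 1` there are `w ≠ w'` and lists `pos`,
`neg` with `pos.length = neg.length + 1` and `w^i + w'^i = 2 ∑_{pos} x^i - 2 ∑_{neg} x^i` for all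
`i < m`. -/
theorem exists_pr_explicit (m : ℕ) (hm : 1 ≤ m) :
    ∃ (w w' : ℕ) (pos neg : List ℕ), w ≠ w' ∧ pos.length = neg.length + 1 ∧
      pos.length ≤ 16 * m ^ 5 ∧
      (∀ x ∈ w :: w' :: (pos ++ neg), x ≤ 2 ^ (8 * m ^ 4)) ∧
      ∀ i < m, (w : ℤ) ^ i + (w' : ℤ) ^ i =
        2 * (pos.map (fun x : ℕ => (x : ℤ) ^ i)).sum -
          2 * (neg.map (fun x : ℕ => (x : ℤ) ^ i)).sum := by
  rcases Nat.eq_or_lt_of_le hm with rfl | hm2
  · refine ⟨0, 1, [0], [], by norm_num, rfl, by norm_num, ?_, ?_⟩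
    · intro x hx
      simp at hx
      have h2 : 1 ≤ 2 ^ (8 * 1 ^ 4) := Nat.one_le_two_pow
      omega
    · intro i hi
      interval_cases i
      norm_num
  obtain ⟨k, rfl⟩ : ∃ k, m = k + 1 := ⟨m - 1, by omega⟩
  have hk1 : 1 ≤ k := by omega
  obtain ⟨p, hp, hkp, hp2k⟩ := Nat.exists_prime_lt_and_le_two_mul k (by omega)
  have : Fact p.Prime := ⟨hp⟩
  have hp2 := hp.two_le
  set G : ℕ := k ^ 3 + 4 * k + 2 with hG
  have hbox : 2 * (2 * (k * p ^ (k * k + 1) + 1) + 1) ^ k < p ^ G := by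
    have h1 : 2 * (k * p ^ (k * k + 1) + 1) + 1 ≤ p ^ (k * k + 4) := by
      have h2 : k * p ^ (k * k + 1) ≤ p * p ^ (k * k + 1) := Nat.mul_le_mul_right _ hkp.le
      have h3 : p * p ^ (k * k + 1) = p ^ (k * k + 2) := by ring
      have h4 : p ^ (k * k + 4) = p * p * p ^ (k * k + 2) := by ring
      have h5 : 4 ≤ p ^ (k * k + 2) := by
        calc 4 = 2 ^ 2 := by norm_num
          _ ≤ p ^ 2 := Nat.pow_le_pow_left hp2 2
          _ ≤ p ^ (k * k + 2) := Nat.pow_le_pow_right (by omega) (by omega)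
      have h6 : 4 ≤ p * p := by nlinarith
      have h7 : 4 * p ^ (k * k + 2) ≤ p * p * p ^ (k * k + 2) := Nat.mul_le_mul_right _ h6
      omega
    calc 2 * (2 * (k * p ^ (k * k + 1) + 1) + 1) ^ k
        ≤ p * (p ^ (k * k + 4)) ^ k := Nat.mul_le_mul hp2 (Nat.pow_le_pow_left h1 k)
      _ = p ^ (k ^ 3 + 4 * k + 1) := by ring
      _ < p ^ G := Nat.pow_lt_pow_right (by omega) (by omega)
  obtain ⟨w, w', A, B, hne, hw, hw', hAl, hBl, hAx, hBx, hrel⟩ := relation hk1 hkp G hbox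
  have hexp : p ^ (k + G) ≤ 2 ^ (8 * (k + 1) ^ 4) := by
    have h1 : p ≤ 2 ^ (k + 1) := by
      have := Nat.lt_two_pow_self (n := k)
      calc p ≤ 2 * k := hp2k
        _ ≤ 2 * 2 ^ k := by omega
        _ = 2 ^ (k + 1) := by ring
    calc p ^ (k + G) ≤ (2 ^ (k + 1)) ^ (k + G) := Nat.pow_le_pow_left h1 _
      _ = 2 ^ ((k + 1) * (k + G)) := by rw [← pow_mul]
      _ ≤ 2 ^ (8 * (k + 1) ^ 4) := by
          apply Nat.pow_le_pow_right (by norm_num)
          rw [hG]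
          have : k + (k ^ 3 + 4 * k + 2) ≤ 8 * (k + 1) ^ 3 := by nlinarith [sq_nonneg k]
          calc (k + 1) * (k + (k ^ 3 + 4 * k + 2)) ≤ (k + 1) * (8 * (k + 1) ^ 3) :=
                Nat.mul_le_mul_left _ this
            _ = 8 * (k + 1) ^ 4 := by ring
  have hGk : p ^ G ≤ p ^ (k + G) := Nat.pow_le_pow_right (by omega) (by omega)
  refine ⟨w, w', w' :: A, B, hne, by simp [hAl, hBl], ?_, ?_, ?_⟩
  · rw [List.length_cons, hAl]
    have h1 : k * p ≤ 2 * (k + 1) ^ 2 := by nlinarith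
    have h2 : G ≤ 7 * (k + 1) ^ 3 := by rw [hG]; nlinarith [sq_nonneg k]
    have h3 : G * (k * p) ≤ 7 * (k + 1) ^ 3 * (2 * (k + 1) ^ 2) := Nat.mul_le_mul h2 h1
    have h4 : 1 ≤ (k + 1) ^ 5 := Nat.one_le_pow _ _ (by omega)
    calc G * (k * p) + 1 ≤ 7 * (k + 1) ^ 3 * (2 * (k + 1) ^ 2) + (k + 1) ^ 5 := by omega
      _ = 15 * (k + 1) ^ 5 := by ring
      _ ≤ 16 * (k + 1) ^ 5 := by omega
  · intro x hx
    rw [List.mem_cons, List.mem_cons, List.mem_append, List.mem_cons] at hx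
    rcases hx with rfl | rfl | (rfl | hx) | hx
    · omega
    · omega
    · omega
    · exact (hAx x hx).le.trans hexp
    · exact (hBx x hx).le.trans hexp
  · intro i hi
    rcases Nat.eq_zero_or_pos i with rfl | hi0
    · simp [hAl, hBl]
      ring
    · rw [List.map_cons, List.sum_cons]
      have := hrel i hi0 (by omega)
      linarith

end Vale.Agent.P321.H505
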